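import Mathlib

namespace Vale.Agent.P346

open MvPolynomial

universe u

/-- The entry `(1,1)` of the product of `d` generic `w × w` matrices; the variable `(t, i, j)` is
the entry `(i, j)` of the matrix number `t`. -/
noncomputable def IMM (K : Type u) [Field K] (w d : ℕ) [NeZero w] :
    MvPolynomial (Fin d × Fin w × Fin w) K :=
  (List.ofFn fun t : Fin d => Matrix.of fun i j : Fin w => (X (t, i, j) : MvPolynomial _ K)).prod 0 0

/-- A five layer circuit: leaves `G0`, bottom sums `G1`, lower products `G2`, middle sums `G3`,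
upper products `G4`, and one output sum.  A sum gate has a finite set of inputs from the layer
below and a coefficient for each; a product gate has a multiset of inputs from the layer below. -/
structure Circuit (K : Type u) (σ : Type) where
  G0 : Type
  G1 : Type
  G2 : Type
  G3 : Type
  G4 : Type
  fin0 : Fintype G0
  fin1 : Fintype G1
  fin2 : Fintype G2
  fin3 : Fintype G3
  fin4 : Fintype G4
  leaf : G0 → σ ⊕ K
  in1 : G1 → Finset G0
  c1 : G1 → G0 → K
  in2 : G2 → Multiset G1
  in3 : G3 → Finset G2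
  c3 : G3 → G2 → K
  in4 : G4 → Multiset G3
  in5 : Finset G4
  c5 : G4 → K

namespace Circuit

variable {K : Type u} [Field K] {σ : Type} (C : Circuit K σ)

/-- number of vertices -/
def size : ℕ :=
  @Fintype.card C.G0 C.fin0 + @Fintype.card C.G1 C.fin1 + @Fintype.card C.G2 C.fin2 +
    @Fintype.card C.G3 C.fin3 + @Fintype.card C.G4 C.fin4 + 1

noncomputable def val0 (g : C.G0) : MvPolynomial σ K := Sum.elim X MvPolynomial.C (C.leaf g)
noncomputable def val1 (g : C.G1) : MvPolynomial σ K := ∑ x ∈ C.in1 g, C.c1 g x • C.val0 x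
noncomputable def val2 (g : C.G2) : MvPolynomial σ K := ((C.in2 g).map C.val1).prod
noncomputable def val3 (g : C.G3) : MvPolynomial σ K := ∑ x ∈ C.in3 g, C.c3 g x • C.val2 x
noncomputable def val4 (g : C.G4) : MvPolynomial σ K := ((C.in4 g).map C.val3).prod
/-- the polynomial computed at the output gate -/
noncomputable def val : MvPolynomial σ K := ∑ x ∈ C.in5, C.c5 x • C.val4 x

def deg0 (g : C.G0) : ℕ := Sum.elim (fun _ => 1) (fun _ => 0) (C.leaf g)
def deg1 (g : C.G1) : ℕ := (C.in1 g).sup C.deg0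
def deg2 (g : C.G2) : ℕ := ((C.in2 g).map C.deg1).sum
def deg3 (g : C.G3) : ℕ := (C.in3 g).sup C.deg2
def deg4 (g : C.G4) : ℕ := ((C.in4 g).map C.deg3).sum

/-- all inputs of each sum gate have equal formal degree -/
def Homogeneous : Prop :=
  (∀ g, ∀ x ∈ C.in1 g, ∀ y ∈ C.in1 g, C.deg0 x = C.deg0 y) ∧
  (∀ g, ∀ x ∈ C.in3 g, ∀ y ∈ C.in3 g, C.deg2 x = C.deg2 y) ∧
  (∀ x ∈ C.in5, ∀ y ∈ C.in5, C.deg4 x = C.deg4 y)

/-- every gate has at least one input -/
def Fed : Prop :=
  (∀ g, (C.in1 g).Nonempty) ∧ (∀ g, C.in2 g ≠ 0) ∧ (∀ g, (C.in3 g).Nonempty) ∧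
  (∀ g, C.in4 g ≠ 0) ∧ C.in5.Nonempty

end Circuit

/-- minimum size of a syntactically homogeneous five layer circuit computing `IMM n n` -/
noncomputable def minSize (K : Type u) [Field K] (n : ℕ) [NeZero n] : ℕ :=
  sInf {s | ∃ C : Circuit K (Fin n × Fin n × Fin n),
    C.Fed ∧ C.Homogeneous ∧ C.val = IMM K n n ∧ C.size = s}

end Vale.Agent.P346
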