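import Vale.Agent.P346.Meas
import Vale.Agent.P346.Defs

namespace Vale.Agent.P346

open Finset MvPolynomial

/-- geometric sum -/
noncomputable def AA (x : ℝ) (d : ℕ) : ℝ :=
  ∑ j ∈ Finset.range (d + 1), x ^ ((d - 2 * j) + (2 * j - d))

lemma AA_step (x : ℝ) (d : ℕ) : AA x (d + 2) = AA x d + 2 * x ^ (d + 2) := by
  unfold AA
  rw [Finset.sum_range_succ, Finset.sum_range_succ']
  have h1 : ∀ j ∈ Finset.range (d + 1), x ^ ((d + 2 - 2 * (j + 1)) + (2 * (j + 1) - (d + 2)))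
      = x ^ ((d - 2 * j) + (2 * j - d)) := fun j _ => by congr 1; omega
  rw [Finset.sum_congr rfl h1]
  have e1 : d + 2 - 2 * 0 + (2 * 0 - (d + 2)) = d + 2 := by omega
  have e2 : d + 2 - 2 * (d + 2) + (2 * (d + 2) - (d + 2)) = d + 2 := by omega
  rw [e1, e2]; ring

lemma AA_bound {x : ℝ} (hx : 0 ≤ x) (h2 : 2 * x ^ 2 ≤ 1) (d0 m : ℕ) :
    AA x (d0 + 2 * m) + 4 * x ^ (d0 + 2 * m + 2) ≤ AA x d0 + 4 * x ^ (d0 + 2) := by
  induction m with
  | zero => simp
  | succ m ih =>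
    rw [show d0 + 2 * (m + 1) = d0 + 2 * m + 2 by ring, AA_step]
    have : x ^ (d0 + 2 * m + 2 + 2) = x ^ 2 * x ^ (d0 + 2 * m + 2) := by ring
    have h3 : 0 ≤ x ^ (d0 + 2 * m + 2) := by positivity
    rw [this]
    nlinarith

lemma th_eq {G H : ℝ} (hG : 0 < G) (hH : 0 < H) {j d : ℕ} (h : j ≤ d) :
    th (G / H) (G * H) (j, d - j) = H ^ d * (G ^ (d - j) / G ^ j) := by
  obtain ⟨i, rfl⟩ := Nat.exists_eq_add_of_le h
  simp only [th, Nat.add_sub_cancel_left, mul_pow, div_pow, pow_add]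
  field_simp

lemma min_le {G H : ℝ} (hG : 0 < G) (hH : 1 ≤ H) {j d : ℕ} (h : j ≤ d) :
    min (th (G / H) (G * H) (j, d - j)) (th (G / H) (G * H) (j, d - j))⁻¹
      ≤ H ^ d * G⁻¹ ^ ((d - 2 * j) + (2 * j - d)) := by
  have hH0 : 0 < H := by linarith
  rw [th_eq hG hH0 h]
  rcases le_total (2 * j) d with c | c
  · refine (min_le_right _ _).trans ?_
    obtain ⟨i, rfl⟩ := Nat.exists_eq_add_of_le c
    rw [show 2 * j + i - j = j + i by omega, show 2 * j + i - 2 * j + (2 * j - (2 * j + i)) = i by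
      omega]
    have h1 : (1 : ℝ) ≤ H ^ (2 * j + i) := one_le_pow₀ hH
    calc _ = (H ^ (2 * j + i))⁻¹ * G⁻¹ ^ i := by rw [pow_add G, inv_pow]; field_simp
      _ ≤ _ := by gcongr; exact (inv_le_one_of_one_le₀ h1).trans h1
  · refine (min_le_left _ _).trans (le_of_eq ?_)
    obtain ⟨i, rfl⟩ := Nat.exists_eq_add_of_le h
    obtain ⟨k, rfl⟩ : ∃ k, j = i + k := ⟨j - i, by omega⟩
    rw [show i + k + i - (i + k) = i by omega,
      show i + k + i - 2 * (i + k) + (2 * (i + k) - (i + k + i)) = k by omega, pow_add G, inv_pow]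
    field_simp

lemma cc_any {α β : ℝ} (hα : 0 < α) (hβ : 0 < β) (d : ℕ) : cc α β d ≤ d + 1 := by
  calc cc α β d ≤ ∑ _j ∈ Finset.range (d + 1), (1 : ℝ) := by
        apply Finset.sum_le_sum
        intro j _
        rcases le_total (th α β (j, d - j)) 1 with h | h
        · exact (min_le_left _ _).trans h
        · exact (min_le_right _ _).trans (inv_le_one_of_one_le₀ h)
    _ = _ := by simp

lemma cc_lin {G H : ℝ} (hG : 0 < G) (hH : 1 ≤ H) {d : ℕ} (hd : d ≤ 1) :
    cc (G / H) (G * H) d ≤ (2 * H / G) ^ d := by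
  interval_cases d
  · simp [cc, th]
  · calc _ ≤ ∑ j ∈ Finset.range (1 + 1), H ^ 1 * G⁻¹ ^ ((1 - 2 * j) + (2 * j - 1)) :=
          Finset.sum_le_sum fun j hj => min_le hG hH (by simp at hj; omega)
      _ = _ := by simp [Finset.sum_range_succ]; field_simp; ring

lemma cc_low {G H : ℝ} (hG : 0 < G) (hH : 1 ≤ H) (hG2 : 2 ≤ G ^ 2) {τ : ℕ}
    (h1 : ∀ d : ℕ, 1 ≤ d → d ≤ τ → H ^ (2 * d) ≤ 3 * d) (h2 : 4 * H ^ (2 * τ) ≤ G)
    {d : ℕ} (hd : d ≤ τ) : cc (G / H) (G * H) d ≤ (Real.exp (12 / G ^ 2) / H) ^ d := by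
  have hH0 : 0 < H := by linarith
  have hx : 0 ≤ G⁻¹ := by positivity
  have hx2 : 2 * G⁻¹ ^ 2 ≤ 1 := by
    rw [inv_pow, ← div_eq_mul_inv, div_le_one (by positivity)]; exact hG2
  rcases Nat.eq_zero_or_pos d with rfl | hd0
  · simp [cc, th]
  have hexp : 1 + 12 * d / G ^ 2 ≤ Real.exp (12 / G ^ 2) ^ d := by
    rw [← Real.exp_nat_mul]
    have := Real.add_one_le_exp (d * (12 / G ^ 2))
    calc 1 + 12 * d / G ^ 2 = d * (12 / G ^ 2) + 1 := by ring
      _ ≤ _ := this
  rw [div_pow]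
  rcases Nat.even_or_odd' d with ⟨m, rfl | rfl⟩
  · have a := AA_bound hx hx2 0 m
    have a0 : AA G⁻¹ 0 = 1 := by simp [AA]
    rw [a0, zero_add, zero_add] at a
    have a1 : AA G⁻¹ (2 * m) ≤ 1 + 4 * G⁻¹ ^ 2 := by
      have : 0 ≤ G⁻¹ ^ (2 * m + 2) := by positivity
      linarith
    calc cc (G / H) (G * H) (2 * m) ≤ ∑ j ∈ Finset.range (2 * m + 1),
          (H ^ (2 * m) * G⁻¹ ^ ((2 * m - 2 * j) + (2 * j - 2 * m)) +
            if j = m then (H ^ (2 * m))⁻¹ - H ^ (2 * m) else 0) := by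
          apply Finset.sum_le_sum
          intro j hj
          split_ifs with e
          · subst e
            refine (min_le_right _ _).trans (le_of_eq ?_)
            rw [th_eq hG hH0 (by omega), show 2 * j - j = j by omega, div_self (by positivity)]
            simp
          · rw [add_zero]
            exact min_le hG hH (by simp at hj; omega)
      _ = H ^ (2 * m) * AA G⁻¹ (2 * m) + ((H ^ (2 * m))⁻¹ - H ^ (2 * m)) := by
          rw [Finset.sum_add_distrib, Finset.sum_ite_eq', if_pos (by simp; omega), AA,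
            Finset.mul_sum]
      _ ≤ H ^ (2 * m) * (1 + 4 * G⁻¹ ^ 2) + ((H ^ (2 * m))⁻¹ - H ^ (2 * m)) := by gcongr
      _ = (1 + 4 * H ^ (2 * (2 * m)) / G ^ 2) / H ^ (2 * m) := by
          rw [two_mul (2 * m), pow_add]; field_simp; ring
      _ ≤ (1 + 4 * (3 * ((2 * m : ℕ) : ℝ)) / G ^ 2) / H ^ (2 * m) := by
          gcongr; exact h1 _ hd0 hd
      _ ≤ _ := by
          gcongr
          refine le_trans (le_of_eq ?_) hexp
          ring
  · have a := AA_bound hx hx2 1 m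
    have a0 : AA G⁻¹ 1 = 2 * G⁻¹ := by simp [AA, Finset.sum_range_succ]; ring
    rw [a0, add_comm 1] at a
    have a1 : AA G⁻¹ (2 * m + 1) ≤ 4 * G⁻¹ := by
      have : 0 ≤ G⁻¹ ^ (2 * m + 1 + 2) := by positivity
      have : G⁻¹ ^ (1 + 2) = G⁻¹ ^ 2 * G⁻¹ := by ring
      nlinarith
    have a2 : H ^ (2 * (2 * m + 1)) ≤ H ^ (2 * τ) := pow_le_pow_right₀ hH (by omega)
    calc cc (G / H) (G * H) (2 * m + 1) ≤ ∑ j ∈ Finset.range (2 * m + 1 + 1),
          H ^ (2 * m + 1) * G⁻¹ ^ ((2 * m + 1 - 2 * j) + (2 * j - (2 * m + 1))) :=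
          Finset.sum_le_sum fun j hj => min_le hG hH (by simp at hj; omega)
      _ = H ^ (2 * m + 1) * AA G⁻¹ (2 * m + 1) := by rw [AA, Finset.mul_sum]
      _ ≤ H ^ (2 * m + 1) * (4 * G⁻¹) := by gcongr
      _ = (4 * H ^ (2 * (2 * m + 1)) / G) / H ^ (2 * m + 1) := by
          rw [two_mul (2 * m + 1), pow_add H (2 * m + 1)]; field_simp
      _ ≤ 1 / H ^ (2 * m + 1) := by
          gcongr
          rw [div_le_one hG]; linarith
      _ ≤ _ := by
          gcongr
          exact one_le_pow₀ (Real.one_le_exp (by positivity))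

lemma prod_le_pow {ι : Type*} (m : Multiset ι) (c : ι → ℝ) (dg : ι → ℕ) (q : ℝ)
    (h : ∀ x ∈ m, 0 ≤ c x ∧ c x ≤ q ^ dg x) : (m.map c).prod ≤ q ^ (m.map dg).sum := by
  have : ∀ m : Multiset ι, q ^ (m.map dg).sum = (m.map (fun x => q ^ dg x)).prod := by
    intro m
    induction m using Multiset.induction_on with
    | empty => simp
    | cons a m ih => simp [pow_add, ih]
  rw [this]
  exact Multiset.prod_map_le_prod_map₀ _ _ (fun x hx => (h x hx).1) (fun x hx => (h x hx).2)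

section
variable {K : Type*} [Field K] {σ : Type}

lemma hom_prod {ι : Type*} (m : Multiset ι) (f : ι → MvPolynomial σ K) (dg : ι → ℕ)
    (h : ∀ x, (f x).IsHomogeneous (dg x)) : (m.map f).prod.IsHomogeneous (m.map dg).sum := by
  induction m using Multiset.induction_on with
  | empty => simpa using isHomogeneous_one σ K
  | cons a m ih => simpa using (h a).mul ih

lemma hom_sum {ι : Type*} (s : Finset ι) (c : ι → K) (f : ι → MvPolynomial σ K) (dg : ι → ℕ)
    (h : ∀ x, (f x).IsHomogeneous (dg x)) (d : ℕ) (hd : ∀ x ∈ s, dg x = d) :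
    (∑ x ∈ s, c x • f x).IsHomogeneous d := by
  apply IsHomogeneous.sum
  intro x hx
  rw [← hd x hx]
  exact (homogeneousSubmodule σ K _).smul_mem _ (h x)

lemma sup_eq {ι : Type*} {s : Finset ι} {dg : ι → ℕ} (h : ∀ x ∈ s, ∀ y ∈ s, dg x = dg y) :
    ∀ x ∈ s, dg x = s.sup dg := fun x hx =>
  le_antisymm (Finset.le_sup hx) (Finset.sup_le fun y hy => (h y hy x hx).le)

variable (C : Circuit K σ)

lemma hom0 (g : C.G0) : (C.val0 g).IsHomogeneous (C.deg0 g) := by
  unfold Circuit.val0 Circuit.deg0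
  cases C.leaf g with
  | inl a => exact isHomogeneous_X K a
  | inr a => exact isHomogeneous_C σ a

omit [Field K] in
lemma deg1_le (g : C.G1) : C.deg1 g ≤ 1 := by
  apply Finset.sup_le
  intro x _
  unfold Circuit.deg0
  cases C.leaf x <;> simp

variable {C}

lemma hom1 (h : C.Homogeneous) (g : C.G1) : (C.val1 g).IsHomogeneous (C.deg1 g) :=
  hom_sum _ _ _ _ (hom0 C) _ (sup_eq (h.1 g))
lemma hom2 (h : C.Homogeneous) (g : C.G2) : (C.val2 g).IsHomogeneous (C.deg2 g) :=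
  hom_prod _ _ _ (hom1 h)
lemma hom3 (h : C.Homogeneous) (g : C.G3) : (C.val3 g).IsHomogeneous (C.deg3 g) :=
  hom_sum _ _ _ _ (hom2 h) _ (sup_eq (h.2.1 g))
lemma hom4 (h : C.Homogeneous) (g : C.G4) : (C.val4 g).IsHomogeneous (C.deg4 g) :=
  hom_prod _ _ _ (hom3 h)

lemma deg4_eq (h : C.Homogeneous) {n : ℕ} (hn : C.val.IsHomogeneous n) (h0 : C.val ≠ 0) :
    ∀ x ∈ C.in5, C.deg4 x = n := by
  intro x hx
  exact (hom_sum _ _ _ _ (hom4 h) _ (fun y hy => h.2.2 y hy x hx)).inj_right hn h0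

theorem Phi_circ [Fintype σ] [DecidableEq σ] (h : C.Homogeneous) {wt : σ → ℕ × ℕ} {κ : ℕ × ℕ}
    (hwt : ∀ e, (wt e).1 + (wt e).2 = 1) {G H : ℝ} (hG : 0 < G) (hH : 1 ≤ H) (hG2 : 2 ≤ G ^ 2)
    {τ n : ℕ} (h1 : ∀ d : ℕ, 1 ≤ d → d ≤ τ → H ^ (2 * d) ≤ 3 * d) (h2 : 4 * H ^ (2 * τ) ≤ G)
    (h3 : 2 * H ≤ G) (hn : ∀ x ∈ C.in5, C.deg4 x = n) (M : ℝ)
    (hM1 : (Real.exp (12 / G ^ 2) / H) ^ n ≤ M) (hM2 : (n + 1) * (2 * H / G) ^ τ ≤ M) :
    Phi wt (G / H) (G * H) κ C.val ≤
      (C.size : ℝ) ^ 2 * (DD wt (G / H) (G * H) * th (G / H) (G * H) κ * M) := by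
  classical
  have hH0 : 0 < H := by linarith
  have hα : 0 < G / H := by positivity
  have hβ : 0 < G * H := by positivity
  have hD : 0 ≤ DD wt (G / H) (G * H) * th (G / H) (G * H) κ :=
    mul_nonneg DD_nonneg (th_pos hα hβ κ).le
  have hM0 : 0 ≤ M := le_trans (by positivity) hM1
  have s1 : (1 : ℝ) ≤ C.size := by exact_mod_cast (by unfold Circuit.size; omega : 1 ≤ C.size)
  have s4 : (C.in5.card : ℝ) ≤ C.size := by
    have := @Finset.card_le_univ _ C.fin4 C.in5
    exact_mod_cast (by unfold Circuit.size; omega : C.in5.card ≤ C.size)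
  have s2 : ∀ g, ((C.in3 g).card : ℝ) ≤ C.size := by
    intro g
    have := @Finset.card_le_univ _ C.fin2 (C.in3 g)
    exact_mod_cast (by unfold Circuit.size; omega : (C.in3 g).card ≤ C.size)
  set B := DD wt (G / H) (G * H) * th (G / H) (G * H) κ with hB
  have key : ∀ x ∈ C.in5, Phi wt (G / H) (G * H) κ (C.val4 x) ≤ C.size * (B * M) := by
    intro x hx
    have hdeg := hn x hx
    by_cases hl : ∀ g ∈ C.in4 x, C.deg3 g ≤ τ
    · have := Phi_prod' (κ := κ) hα hβ hwt ((C.in4 x).map (fun g => (C.val3 g, C.deg3 g)))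
        (by
          intro y hy
          obtain ⟨g, -, rfl⟩ := Multiset.mem_map.1 hy
          exact hom3 h g)
      simp only [Multiset.map_map, Function.comp_def] at this
      have a := prod_le_pow (C.in4 x) (fun g => cc (G / H) (G * H) (C.deg3 g)) C.deg3
        (Real.exp (12 / G ^ 2) / H) (fun g hg => ⟨cc_nonneg hα hβ _,
          cc_low hG hH hG2 h1 h2 (hl g hg)⟩)
      have e : ((C.in4 x).map C.deg3).sum = n := hdeg
      rw [e] at a
      calc _ ≤ _ := this
        _ ≤ B * M := mul_le_mul_of_nonneg_left (a.trans hM1) hD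
        _ ≤ _ := le_mul_of_one_le_left (by positivity) s1
    · push Not at hl
      obtain ⟨g, hg, hτ⟩ := hl
      obtain ⟨rest, hrest⟩ := Multiset.exists_cons_of_mem hg
      have hR := hom_prod rest C.val3 C.deg3 (hom3 h)
      have hRd : (rest.map C.deg3).sum ≤ n := by
        rw [← hdeg, Circuit.deg4, hrest]; simp
      rw [Circuit.val4, hrest, Multiset.map_cons, Multiset.prod_cons, Circuit.val3, Finset.sum_mul]
      refine (Phi_sum _ _).trans ?_
      calc _ ≤ ∑ _y ∈ C.in3 g, B * M := ?_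
        _ = (C.in3 g).card * (B * M) := by simp
        _ ≤ _ := mul_le_mul_of_nonneg_right (s2 g) (by positivity)
      apply Finset.sum_le_sum
      intro y hy
      rw [smul_mul_assoc]
      refine (Phi_smul _ _).trans ?_
      have := Phi_prod' (κ := κ) hα hβ hwt (((rest.map C.val3).prod, (rest.map C.deg3).sum) ::ₘ
        (C.in2 y).map (fun g => (C.val1 g, C.deg1 g))) (by
          intro z hz
          rcases Multiset.mem_cons.1 hz with rfl | hz
          · exact hR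
          · obtain ⟨g, -, rfl⟩ := Multiset.mem_map.1 hz
            exact hom1 h g)
      simp only [Multiset.map_cons, Multiset.prod_cons, Multiset.map_map, Function.comp_def] at this
      rw [mul_comm (C.val2 y)]
      refine le_trans this (mul_le_mul_of_nonneg_left (le_trans ?_ hM2) hD)
      have a := prod_le_pow (C.in2 y) (fun g => cc (G / H) (G * H) (C.deg1 g)) C.deg1
        (2 * H / G) (fun g _ => ⟨cc_nonneg hα hβ _, cc_lin hG hH (deg1_le C g)⟩)
      have e : ((C.in2 y).map C.deg1).sum = C.deg3 g := sup_eq (h.2.1 g) y hy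
      rw [e] at a
      have b : (2 * H / G) ^ C.deg3 g ≤ (2 * H / G) ^ τ :=
        pow_le_pow_of_le_one (by positivity) (by rw [div_le_one hG]; exact h3) hτ.le
      have c := cc_any hα hβ (rest.map C.deg3).sum
      have c' : (((rest.map C.deg3).sum : ℕ) : ℝ) ≤ n := by exact_mod_cast hRd
      apply mul_le_mul (by linarith) (a.trans b) _ (by positivity)
      exact Multiset.prod_nonneg fun z hz => by
        obtain ⟨g, -, rfl⟩ := Multiset.mem_map.1 hz
        exact cc_nonneg hα hβ _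
  calc _ ≤ ∑ x ∈ C.in5, Phi wt (G / H) (G * H) κ (C.c5 x • C.val4 x) := Phi_sum _ _
    _ ≤ ∑ _x ∈ C.in5, C.size * (B * M) :=
        Finset.sum_le_sum fun x hx => (Phi_smul _ _).trans (key x hx)
    _ = C.in5.card * (C.size * (B * M)) := by simp
    _ ≤ C.size * (C.size * (B * M)) := by gcongr
    _ = _ := by ring

end

end Vale.Agent.P346
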