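import Vale.Agent.P346.Lin
import Vale.Agent.P346.Defs

namespace Vale.Agent.P346

open Finset MvPolynomial

universe u

section
variable (K : Type u) [Field K] (n : ℕ)

/-- generic matrices padded by identities -/
noncomputable def YY (t : ℕ) : Matrix (Fin n) (Fin n) (MvPolynomial (Fin n × Fin n × Fin n) K) :=
  if h : t < n then Matrix.of fun i j => X (⟨t, h⟩, i, j) else 1

lemma YY_pad (k : ℕ) : (List.ofFn fun t : Fin (n + k) => YY K n t).prod
    = (List.ofFn fun t : Fin n => YY K n t).prod := by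
  induction k with
  | zero => rfl
  | succ k ih =>
    rw [← ih]
    change (List.ofFn fun t : Fin (n + k + 1) => YY K n t).prod = _
    rw [List.ofFn_succ_last, List.prod_append, List.prod_singleton]
    simp [YY]

lemma IMM_block [NeZero n] (g b : ℕ) (h : n ≤ g * b) : IMM K n n =
    (List.ofFn fun j : Fin g => (List.ofFn fun s : Fin b => YY K n (j * b + s)).prod).prod 0 0 := by
  have h1 : IMM K n n = (List.ofFn fun t : Fin n => YY K n t).prod 0 0 := by
    simp [IMM, YY]
  obtain ⟨k, hk⟩ := Nat.exists_eq_add_of_le h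
  rw [h1, ← YY_pad K n k, ← hk, List.ofFn_mul, List.prod_flatten, List.map_ofFn]
  rfl

/-- the block circuit -/
noncomputable abbrev blockC [NeZero n] (g b : ℕ) : Circuit K (Fin n × Fin n × Fin n) where
  G0 := Fin g × Fin b × Fin n × Fin n
  G1 := Fin g × Fin b × Fin n × Fin n
  G2 := Fin g × (Fin (b + 1) → Fin n)
  G3 := Fin g × Fin n × Fin n
  G4 := Fin (g + 1) → Fin n
  fin0 := inferInstance
  fin1 := inferInstance
  fin2 := inferInstance
  fin3 := inferInstance
  fin4 := inferInstance
  leaf x := if h : x.1 * b + x.2.1 < n then Sum.inl (⟨_, h⟩, x.2.2.1, x.2.2.2)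
    else Sum.inr (if x.2.2.1 = x.2.2.2 then 1 else 0)
  in1 x := {x}
  c1 _ _ := 1
  in2 x := Finset.univ.val.map (fun s : Fin b => (x.1, s, x.2 s.castSucc, x.2 s.succ))
  in3 x := (Finset.univ.filter (fun v : Fin (b + 1) → Fin n =>
    v 0 = x.2.1 ∧ v (Fin.last b) = x.2.2)).image (fun v => (x.1, v))
  c3 _ _ := 1
  in4 a := Finset.univ.val.map (fun j : Fin g => (j, a j.castSucc, a j.succ))
  in5 := Finset.univ.filter (fun a : Fin (g + 1) → Fin n => a 0 = 0 ∧ a (Fin.last g) = 0)
  c5 _ := 1

variable [NeZero n] (g b : ℕ)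

lemma blockC_val0 (x : Fin g × Fin b × Fin n × Fin n) :
    (blockC K n g b).val1 x = YY K n (x.1 * b + x.2.1) x.2.2.1 x.2.2.2 := by
  have : (blockC K n g b).val1 x = (blockC K n g b).val0 x := by
    change ∑ y ∈ ({x} : Finset _), (1 : K) • (blockC K n g b).val0 y = _
    simp
  rw [this]
  change Sum.elim X MvPolynomial.C (if h : x.1 * b + x.2.1 < n then _ else _) = _
  unfold YY
  split_ifs with h1 h2
  · rfl
  · simp [Matrix.one_apply, h2]
  · simp [Matrix.one_apply, h2]

lemma blockC_deg1 (x : Fin g × Fin b × Fin n × Fin n) :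
    (blockC K n g b).deg1 x = if x.1 * b + x.2.1 < n then 1 else 0 := by
  have : (blockC K n g b).deg1 x = (blockC K n g b).deg0 x := by
    change ({x} : Finset _).sup (blockC K n g b).deg0 = _
    simp
  rw [this]
  change Sum.elim (fun _ => 1) (fun _ => 0) (if h : x.1 * b + x.2.1 < n then _ else _) = _
  split_ifs <;> rfl

lemma blockC_val3 (x : Fin g × Fin n × Fin n) : (blockC K n g b).val3 x =
    (List.ofFn fun s : Fin b => YY K n (x.1 * b + s)).prod x.2.1 x.2.2 := by
  rw [prod_entry, ← Finset.sum_filter]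
  change ∑ y ∈ (Finset.univ.filter (fun v : Fin (b + 1) → Fin n =>
    v 0 = x.2.1 ∧ v (Fin.last b) = x.2.2)).image (fun v => (x.1, v)),
      (1 : K) • (blockC K n g b).val2 y = _
  rw [Finset.sum_image (fun a _ b _ h => (Prod.mk.inj h).2)]
  apply Finset.sum_congr rfl
  intro v _
  rw [one_smul]
  change ((Finset.univ.val.map (fun s : Fin b => (x.1, s, v s.castSucc, v s.succ))).map
    (blockC K n g b).val1).prod = _
  rw [Multiset.map_map]
  exact Finset.prod_congr rfl fun s _ => blockC_val0 K n g b _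

lemma blockC_val (h : n ≤ g * b) : (blockC K n g b).val = IMM K n n := by
  rw [IMM_block K n g b h, prod_entry, ← Finset.sum_filter]
  apply Finset.sum_congr rfl
  intro a _
  change (1 : K) • ((Finset.univ.val.map (fun j : Fin g => (j, a j.castSucc, a j.succ))).map
    (blockC K n g b).val3).prod = _
  rw [one_smul, Multiset.map_map]
  exact Finset.prod_congr rfl fun s _ => blockC_val3 K n g b _

lemma blockC_deg2 (x : Fin g × (Fin (b + 1) → Fin n)) :
    (blockC K n g b).deg2 x = ∑ s : Fin b, if x.1 * b + s < n then 1 else 0 := by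
  change ((Finset.univ.val.map (fun s : Fin b => (x.1, s, x.2 s.castSucc, x.2 s.succ))).map
    (blockC K n g b).deg1).sum = _
  rw [Multiset.map_map]
  exact Finset.sum_congr rfl fun s _ => blockC_deg1 K n g b _

lemma blockC_in3 (hb : 0 < b) (x : Fin g × Fin n × Fin n) : ((blockC K n g b).in3 x).Nonempty := by
  apply Finset.Nonempty.image
  refine ⟨fun t => if t = 0 then x.2.1 else x.2.2, ?_⟩
  have : Fin.last b ≠ 0 := by
    intro h
    have := congrArg Fin.val h
    simp at this
    omega
  simp [this]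

lemma blockC_deg3 (hb : 0 < b) (x : Fin g × Fin n × Fin n) :
    (blockC K n g b).deg3 x = ∑ s : Fin b, if x.1 * b + s < n then 1 else 0 := by
  rw [Circuit.deg3, Finset.sup_congr rfl (g := fun _ =>
    ∑ s : Fin b, if x.1 * b + s < n then 1 else 0), Finset.sup_const (blockC_in3 K n g b hb x)]
  intro y hy
  obtain ⟨v, -, rfl⟩ := Finset.mem_image.1 hy
  exact blockC_deg2 K n g b _

lemma blockC_hom (hb : 0 < b) : (blockC K n g b).Homogeneous := by
  refine ⟨?_, ?_, ?_⟩
  · intro x y hy z hz
    rw [Finset.mem_singleton.1 hy, Finset.mem_singleton.1 hz]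
  · intro x y hy z hz
    obtain ⟨v, -, rfl⟩ := Finset.mem_image.1 hy
    obtain ⟨v', -, rfl⟩ := Finset.mem_image.1 hz
    rw [blockC_deg2, blockC_deg2]
  · have : ∀ a : Fin (g + 1) → Fin n, (blockC K n g b).deg4 a =
        ∑ j : Fin g, ∑ s : Fin b, if j * b + s < n then 1 else 0 := by
      intro a
      change ((Finset.univ.val.map (fun j : Fin g => (j, a j.castSucc, a j.succ))).map
        (blockC K n g b).deg3).sum = _
      rw [Multiset.map_map]
      exact Finset.sum_congr rfl fun s _ => blockC_deg3 K n g b hb _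
    intro x _ y _
    rw [this, this]

lemma blockC_fed (hg : 0 < g) (hb : 0 < b) : (blockC K n g b).Fed := by
  refine ⟨fun x => Finset.singleton_nonempty x, ?_, blockC_in3 K n g b hb, ?_, ?_⟩
  · intro x h
    have := congrArg Multiset.card h
    simp at this
    omega
  · intro x h
    have := congrArg Multiset.card h
    simp at this
    omega
  · exact ⟨fun _ => 0, Finset.mem_filter.2 ⟨Finset.mem_univ _, rfl, rfl⟩⟩

lemma blockC_size : (blockC K n g b).size =
    g * (b * (n * n)) + g * (b * (n * n)) + g * n ^ (b + 1) + g * (n * n) + n ^ (g + 1) + 1 := by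
  change Fintype.card (Fin g × Fin b × Fin n × Fin n) + Fintype.card (Fin g × Fin b × Fin n × Fin n)
    + Fintype.card (Fin g × (Fin (b + 1) → Fin n)) + Fintype.card (Fin g × Fin n × Fin n)
    + Fintype.card (Fin (g + 1) → Fin n) + 1 = _
  simp

end

theorem exists_circuit (K : Type u) [Field K] (n : ℕ) [NeZero n] (hn : 9 ≤ n) :
    ∃ C : Circuit K (Fin n × Fin n × Fin n), C.Fed ∧ C.Homogeneous ∧ C.val = IMM K n n ∧
      C.size ≤ n ^ (Nat.sqrt n + 5) := by
  have h1 := Nat.sqrt_le' n
  have h2 := Nat.lt_succ_sqrt' n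
  have h3 : 3 ≤ Nat.sqrt n := Nat.le_sqrt'.2 hn
  generalize Nat.sqrt n = b at *
  simp only [Nat.succ_eq_add_one] at h2
  refine ⟨blockC K n (b + 2) b, blockC_fed K n _ _ (by omega) (by omega),
    blockC_hom K n _ _ (by omega), blockC_val K n _ _ (by nlinarith), ?_⟩
  rw [blockC_size]
  have a1 : b + 2 ≤ n := by nlinarith
  have a2 : b ≤ n := by omega
  have p : ∀ k, k ≤ b + 4 → n ^ k ≤ n ^ (b + 4) := fun k hk => Nat.pow_le_pow_right (by omega) hk
  have b1 : (b + 2) * (b * (n * n)) ≤ n ^ (b + 4) := by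
    calc _ ≤ n * (n * (n * n)) := by gcongr
      _ = n ^ 4 := by ring
      _ ≤ _ := p _ (by omega)
  have b2 : (b + 2) * n ^ (b + 1) ≤ n ^ (b + 4) := by
    calc _ ≤ n * n ^ (b + 1) := by gcongr
      _ = n ^ (b + 2) := by ring
      _ ≤ _ := p _ (by omega)
  have b3 : (b + 2) * (n * n) ≤ n ^ (b + 4) := by
    calc _ ≤ n * (n * n) := by gcongr
      _ = n ^ 3 := by ring
      _ ≤ _ := p _ (by omega)
  have b4 := p (b + 2 + 1) (by omega)
  have b5 := p 0 (by omega)
  calc _ ≤ 6 * n ^ (b + 4) := by rw [pow_zero] at b5; omega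
    _ ≤ n * n ^ (b + 4) := by gcongr; omega
    _ = _ := by ring

end Vale.Agent.P346
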