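import Vale.Agent.P346.Lower
import Vale.Agent.P346.Circ
import Vale.Agent.P346.Upper

namespace Vale.Agent.P346

open Finset MvPolynomial

universe u

/-- the running imbalance of the greedy word -/
noncomputable def rho (l μ : ℝ) : ℕ → ℝ
  | 0 => 1
  | t + 1 => if rho l μ t ≤ 1 then rho l μ t * l else rho l μ t * μ⁻¹

lemma rho_bounds {l μ : ℝ} (h1 : 1 ≤ l) (h2 : l ≤ μ) (t : ℕ) :
    rho l μ t ≤ μ ∧ 1 ≤ rho l μ t * μ := by
  have hμ : 0 < μ := by linarith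
  induction t with
  | zero => simp [rho]; linarith
  | succ t ih =>
    have hp : 0 < rho l μ t := by
      by_contra h
      have : rho l μ t * μ ≤ 0 := mul_nonpos_of_nonpos_of_nonneg (not_lt.1 h) hμ.le
      linarith [ih.2]
    unfold rho
    split_ifs with h
    · constructor
      · nlinarith
      · nlinarith [ih.2, mul_pos hp hμ]
    · rw [inv_mul_cancel_right₀ hμ.ne']
      refine ⟨?_, by linarith⟩
      rw [← div_eq_mul_inv, div_le_iff₀ hμ]
      nlinarith [ih.1]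

lemma IMM_hom (K : Type u) [Field K] (w d : ℕ) [NeZero w] : (IMM K w d).IsHomogeneous d := by
  rw [IMM_eq]
  apply IsHomogeneous.sum
  intro v _
  apply isHomogeneous_monomial
  rw [ind_pset, map_sum]
  simp

theorem lower_core (K : Type u) [Field K] [CharZero K] (m : ℕ)
    (C : Circuit K (Fin (m + 1) × Fin (m + 1) × Fin (m + 1))) (hC : C.Homogeneous)
    (hv : C.val = IMM K (m + 1) (m + 1)) {G H : ℝ} (hG : 0 < G) (hH : 1 ≤ H) (hG2 : 2 ≤ G ^ 2)
    {τ : ℕ} (h1 : ∀ d : ℕ, 1 ≤ d → d ≤ τ → H ^ (2 * d) ≤ 3 * d) (h2 : 4 * H ^ (2 * τ) ≤ G)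
    (h3 : 2 * H ≤ G) (M : ℝ)
    (hM1 : (Real.exp (12 / G ^ 2) / H) ^ (m + 1) ≤ M)
    (hM2 : (((m + 1 : ℕ) : ℝ) + 1) * (2 * H / G) ^ τ ≤ M) :
    1 ≤ (C.size : ℝ) ^ 2 * M * Real.exp (3 * (G * H) ^ 2) := by
  have hH0 : 0 < H := by linarith
  have hα : 0 < G / H := by positivity
  have hβ : 0 < G * H := by positivity
  have hα1 : 1 ≤ G / H := by rw [le_div_iff₀ hH0]; linarith
  have hαβ : G / H ≤ G * H := (div_le_self hG.le hH).trans (le_mul_of_one_le_right hG.le hH)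
  have hl1 : 1 ≤ (G / H) ^ 2 := one_le_pow₀ hα1
  have hl2 : (G / H) ^ 2 ≤ (G * H) ^ 2 := by gcongr
  obtain ⟨μ, hμ⟩ : ∃ μ, μ = (G * H) ^ 2 := ⟨_, rfl⟩
  rw [← hμ] at hl2 ⊢
  let y : ℕ → ℕ × ℕ := fun t => if rho ((G / H) ^ 2) μ t ≤ 1 then (1, 0) else (0, 1)
  have hρ : ∀ t, rho ((G / H) ^ 2) μ (t + 1)
      = rho ((G / H) ^ 2) μ t * (th (G / H) (G * H) (y t) ^ 2)⁻¹ := by
    intro t
    simp only [rho, y]
    split_ifs
    · simp [th, div_pow]
    · simp [th, hμ]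
  have hb := rho_bounds hl1 hl2
  have lo := Phi_lower K (m + 1) m (G / H) (G * H) μ hα hβ y (rho ((G / H) ^ 2) μ) rfl hρ
    (fun t => (hb t).1) (fun t => (hb t).2)
  have hD : 0 < DD (fun e : Fin (m + 1) × Fin (m + 1) × Fin (m + 1) => y e.1) (G / H) (G * H) :=
    Finset.sum_pos (fun S _ => inv_pos.2 (pow_pos (th_pos hα hβ _) 2)) Finset.univ_nonempty
  have hne : C.val ≠ 0 := by
    intro h0
    rw [← hv, h0, Phi_zero, zero_mul] at lo
    linarith
  have up := Phi_circ hC (wt := fun e : Fin (m + 1) × Fin (m + 1) × Fin (m + 1) => y e.1)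
    (κ := ∑ t : Fin (m + 1), y t) (fun e => by simp only [y]; split_ifs <;> rfl) hG hH hG2 h1 h2 h3
    (deg4_eq hC (hv ▸ IMM_hom K _ _) hne) M hM1 hM2
  have hth : ∀ k, rho ((G / H) ^ 2) μ k = (th (G / H) (G * H) (∑ t : Fin k, y t) ^ 2)⁻¹ := by
    intro k
    induction k with
    | zero => simp [rho, th]
    | succ k ih =>
      rw [hρ, ih, Fin.sum_univ_castSucc, th_add, mul_pow, mul_inv]
      rfl
  have hθ := th_pos hα hβ (∑ t : Fin (m + 1), y t)
  have hμ1 : 1 ≤ μ := hl1.trans hl2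
  have hθμ : th (G / H) (G * H) (∑ t : Fin (m + 1), y t) ≤ μ := by
    have a := (hb (m + 1)).2
    rw [hth, inv_mul_eq_div, le_div_iff₀ (by positivity), one_mul] at a
    nlinarith
  rw [hv] at up
  have hM0 : 0 ≤ M := le_trans (by positivity) hM1
  have e1 : μ ≤ Real.exp μ := by linarith [Real.add_one_le_exp μ]
  have e2 : 1 + μ ≤ Real.exp μ := by linarith [Real.add_one_le_exp μ]
  have e3 : (1 + μ / ((m + 1 : ℕ) : ℝ)) ^ m ≤ Real.exp μ := by
    calc _ ≤ Real.exp (μ / ((m + 1 : ℕ) : ℝ)) ^ m := by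
          gcongr; linarith [Real.add_one_le_exp (μ / ((m + 1 : ℕ) : ℝ))]
      _ = Real.exp (m * (μ / ((m + 1 : ℕ) : ℝ))) := (Real.exp_nat_mul _ _).symm
      _ ≤ _ := by
          apply Real.exp_le_exp.2
          rw [mul_div_assoc', div_le_iff₀ (by positivity)]
          push_cast
          nlinarith
  generalize DD (fun e : Fin (m + 1) × Fin (m + 1) × Fin (m + 1) => y e.1) (G / H) (G * H) = D at *
  apply le_of_mul_le_mul_left _ hD
  calc D * 1 = D := mul_one D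
    _ ≤ _ := lo
    _ ≤ ((C.size : ℝ) ^ 2 * (D * th (G / H) (G * H) (∑ t : Fin (m + 1), y t) * M)) *
        ((1 + μ / ((m + 1 : ℕ) : ℝ)) ^ m * (1 + μ)) := by gcongr
    _ ≤ ((C.size : ℝ) ^ 2 * (D * Real.exp μ * M)) * (Real.exp μ * Real.exp μ) := by
        gcongr; linarith
    _ = _ := by
        rw [show 3 * μ = μ + μ + μ by ring, Real.exp_add, Real.exp_add]; ring

theorem lower : ∃ n0 : ℕ, ∀ (K : Type u) [Field K] [CharZero K] (n : ℕ) [NeZero n], n0 ≤ n →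
    ∀ C : Circuit K (Fin n × Fin n × Fin n), C.Homogeneous → C.val = IMM K n n →
      (n : ℝ) ^ (1 / 512 * √n) ≤ C.size := by
  obtain ⟨N, hN⟩ := exists_nat_ge (Real.exp 384)
  refine ⟨N ^ 2, fun K _ _ n _ hn C hC hv => ?_⟩
  obtain ⟨m, rfl⟩ : ∃ m, n = m + 1 := Nat.exists_eq_succ_of_ne_zero (NeZero.ne n)
  have t1 := Nat.sqrt_le' (m + 1)
  have t2 := Nat.lt_succ_sqrt' (m + 1)
  have t3 : N ≤ Nat.sqrt (m + 1) := Nat.le_sqrt'.2 hn
  generalize Nat.sqrt (m + 1) = τ at *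
  have t1' : (τ : ℝ) ^ 2 ≤ (m + 1 : ℕ) := by exact_mod_cast t1
  have t2' : ((m + 1 : ℕ) : ℝ) + 1 ≤ (τ + 1) ^ 2 := by exact_mod_cast t2
  have t3' : Real.exp 384 ≤ τ := hN.trans (by exact_mod_cast t3)
  have hτ : (385 : ℝ) ≤ τ := by linarith [Real.add_one_le_exp 384]
  have hτ0 : (0 : ℝ) < τ := by linarith
  obtain ⟨L, hL⟩ : ∃ L, L = Real.log τ / 4 := ⟨_, rfl⟩
  have hL96 : 96 ≤ L := by
    have := (Real.le_log_iff_exp_le hτ0).2 t3'
    linarith
  obtain ⟨y, hy⟩ : ∃ y, y = Real.exp L := ⟨_, rfl⟩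
  have hy4 : y ^ 4 = τ := by
    rw [hy, ← Real.exp_nat_mul, hL, ← Real.exp_log hτ0, Real.log_exp]
    congr 1; push_cast; ring
  have hyL : L + 1 ≤ y := hy ▸ Real.add_one_le_exp L
  have hy0 : 0 < y := by linarith
  have hy1 : 1 ≤ y := by linarith
  obtain ⟨H, hH⟩ : ∃ H, H = Real.exp (L / (2 * τ)) := ⟨_, rfl⟩
  have hH1 : 1 ≤ H := hH ▸ Real.one_le_exp (by positivity)
  have hHp : ∀ d : ℕ, H ^ (2 * d) = Real.exp (d * L / τ) := by
    intro d
    rw [hH, ← Real.exp_nat_mul]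
    congr 1; push_cast; field_simp
  have hyτ : y ≤ y ^ 3 := le_self_pow₀ hy1 (by norm_num)
  have hLτ : L ≤ τ := by
    have : y ≤ y ^ 4 := le_self_pow₀ hy1 (by norm_num)
    linarith
  have hH2 : H ≤ 2 := by
    have a : H ^ (2 * 1) ≤ Real.exp 1 := by
      rw [hHp]
      apply Real.exp_le_exp.2
      rw [div_le_one hτ0]; simpa using hLτ
    have := Real.exp_one_lt_d9
    exact (pow_le_pow_iff_left₀ (by linarith) (by norm_num) two_ne_zero).1 (by
      rw [mul_one] at a; linarith)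
  have hHτ : H ^ (2 * τ) = y := by rw [hHp, hy]; congr 1; field_simp
  have key := lower_core K m C hC hv (G := y ^ 2) (H := H) (by positivity) hH1 (by
      have : (y ^ 2) ^ 2 = τ := by rw [← hy4]; ring
      linarith) (τ := τ) (by
      intro d hd1 hd2
      have hd1' : (1 : ℝ) ≤ d := by exact_mod_cast hd1
      by_cases c : d * L ≤ τ
      · have : H ^ (2 * d) ≤ Real.exp 1 := by
          rw [hHp]
          apply Real.exp_le_exp.2
          rwa [div_le_one hτ0]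
        linarith [Real.exp_one_lt_d9]
      · have a : H ^ (2 * d) ≤ H ^ (2 * τ) := pow_le_pow_right₀ hH1 (by omega)
        have b : y ^ 3 * y ≤ d * y := by
          have : (d : ℝ) * L ≤ d * y := by gcongr; linarith
          calc y ^ 3 * y = τ := by rw [← hy4]; ring
            _ ≤ _ := by linarith
        have := le_of_mul_le_mul_right b hy0
        linarith) (by rw [hHτ]; nlinarith) (by nlinarith) (Real.exp (-(τ * L / 4))) (by
      have : (y ^ 2) ^ 2 = τ := by rw [← hy4]; ring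
      rw [this, hH, ← Real.exp_sub, ← Real.exp_nat_mul]
      apply Real.exp_le_exp.2
      have a : (τ : ℝ) ≤ ((m + 1 : ℕ) : ℝ) / τ := by rw [le_div_iff₀ hτ0]; linarith
      have b : τ * (L / 4) ≤ ((m + 1 : ℕ) : ℝ) / τ * (L / 2 - 12) := by
        gcongr; linarith
      calc ((m + 1 : ℕ) : ℝ) * (12 / τ - L / (2 * τ))
          = - (((m + 1 : ℕ) : ℝ) / τ * (L / 2 - 12)) := by field_simp; ring
        _ ≤ _ := by linarith) (by
      have a : 2 * H / y ^ 2 ≤ Real.exp (-L) := by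
        rw [Real.exp_neg, ← hy, div_le_iff₀ (by positivity)]
        have : y⁻¹ * y ^ 2 = y := by field_simp
        linarith
      have b : ((τ : ℝ) + 1) ^ 2 ≤ Real.exp τ ^ 2 := by gcongr; exact Real.add_one_le_exp _
      calc _ ≤ Real.exp τ ^ 2 * Real.exp (-L) ^ τ := by gcongr; linarith
        _ = Real.exp (2 * τ + τ * (-L)) := by
            rw [← Real.exp_nat_mul, ← Real.exp_nat_mul, ← Real.exp_add]; norm_num
        _ ≤ _ := by
            apply Real.exp_le_exp.2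
            nlinarith)
  have a1 : 3 * (y ^ 2 * H) ^ 2 ≤ 12 * τ := by
    have : (y ^ 2 * H) ^ 2 = τ * H ^ 2 := by rw [← hy4]; ring
    have h4 : H ^ 2 ≤ 4 := by nlinarith
    rw [this]; nlinarith
  have a2 : Real.exp (τ * L / 16) ^ 2 ≤ (C.size : ℝ) ^ 2 := by
    calc Real.exp (τ * L / 16) ^ 2 = 1 * Real.exp (τ * L / 8) := by
          rw [← Real.exp_nat_mul, one_mul]; congr 1; push_cast; ring
      _ ≤ ((C.size : ℝ) ^ 2 * Real.exp (-(τ * L / 4)) * Real.exp (3 * (y ^ 2 * H) ^ 2))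
          * Real.exp (τ * L / 8) := by gcongr
      _ = (C.size : ℝ) ^ 2 * Real.exp (-(τ * L / 4) + 3 * (y ^ 2 * H) ^ 2 + τ * L / 8) := by
          rw [Real.exp_add, Real.exp_add]; ring
      _ ≤ (C.size : ℝ) ^ 2 * 1 := by
          gcongr
          apply Real.exp_le_one_iff.2
          nlinarith
      _ = _ := mul_one _
  refine le_trans ?_ ((pow_le_pow_iff_left₀ (by positivity) (by positivity) two_ne_zero).1 a2)
  have hn0 : (0 : ℝ) < ((m + 1 : ℕ) : ℝ) := by positivity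
  rw [Real.rpow_def_of_pos hn0]
  apply Real.exp_le_exp.2
  have b1 : √((m + 1 : ℕ) : ℝ) ≤ 2 * τ := by
    rw [Real.sqrt_le_iff]
    constructor
    · positivity
    · nlinarith
  have b2 : Real.log ((m + 1 : ℕ) : ℝ) ≤ 16 * L := by
    have : ((m + 1 : ℕ) : ℝ) ≤ τ ^ 4 := by
      have c1 : (τ : ℝ) + 1 ≤ τ ^ 2 := by nlinarith
      calc ((m + 1 : ℕ) : ℝ) ≤ (τ + 1) ^ 2 := by linarith
        _ ≤ (τ ^ 2) ^ 2 := by gcongr
        _ = _ := by ring
    have := Real.log_le_log hn0 this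
    rw [Real.log_pow] at this
    push_cast at this ⊢
    linarith
  calc Real.log ((m + 1 : ℕ) : ℝ) * (1 / 512 * √((m + 1 : ℕ) : ℝ))
      ≤ (16 * L) * (1 / 512 * (2 * τ)) := by gcongr
    _ = _ := by ring

theorem upper (K : Type u) [Field K] (n : ℕ) [NeZero n] (hn : 9 ≤ n) :
    (minSize K n : ℝ) ≤ (n : ℝ) ^ (3 * √n) := by
  obtain ⟨C, h1, h2, h3, h4⟩ := exists_circuit K n hn
  have a0 : minSize K n ≤ C.size := Nat.sInf_le ⟨C, h1, h2, h3, rfl⟩
  have a : minSize K n ≤ n ^ (Nat.sqrt n + 5) := a0.trans h4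
  have hn' : (9 : ℝ) ≤ n := by exact_mod_cast hn
  calc (minSize K n : ℝ) ≤ (n : ℝ) ^ (Nat.sqrt n + 5) := by exact_mod_cast a
    _ = (n : ℝ) ^ ((Nat.sqrt n + 5 : ℕ) : ℝ) := (Real.rpow_natCast _ _).symm
    _ ≤ _ := by
        apply Real.rpow_le_rpow_of_exponent_le (by linarith)
        have b1 : (Nat.sqrt n : ℝ) ≤ √n := Real.nat_sqrt_le_real_sqrt
        have b2 : (3 : ℝ) ≤ √n := Real.le_sqrt_of_sq_le (by linarith)
        push_cast
        linarith

theorem main : ∃ (c c' : ℝ) (n0 : ℕ), 0 < c ∧ ∀ (K : Type u) [Field K] [CharZero K] (n : ℕ)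
    [NeZero n], n0 ≤ n →
      (n : ℝ) ^ (c * √n) ≤ minSize K n ∧ (minSize K n : ℝ) ≤ (n : ℝ) ^ (c' * √n) ∧
      ∀ C : Circuit K (Fin n × Fin n × Fin n), C.Homogeneous → C.val = IMM K n n →
        (n : ℝ) ^ (c * √n) ≤ C.size := by
  obtain ⟨n0, h⟩ := lower.{u}
  refine ⟨1 / 512, 3, n0 + 9, by norm_num, fun K _ _ n _ hn => ⟨?_, upper K n (by omega),
    h K n (by omega)⟩⟩
  obtain ⟨C0, h1, h2, h3, -⟩ := exists_circuit K n (by omega)
  obtain ⟨C, -, a, b, c⟩ := Nat.sInf_mem (s := {s | ∃ C : Circuit K (Fin n × Fin n × Fin n),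
    C.Fed ∧ C.Homogeneous ∧ C.val = IMM K n n ∧ C.size = s}) ⟨_, C0, h1, h2, h3, rfl⟩
  rw [minSize, ← c]
  exact h K n (by omega) C a b

end Vale.Agent.P346
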