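import Vale.Agent.P346.Lin

namespace Vale.Agent.P346

open Finset Matrix

section
variable {E : Type} [Fintype E] [DecidableEq E]

/-- product weight -/
def wl (r : ℝ) (s : E → Bool) : ℝ := ∏ x, if s x then r else 1

lemma wl_sum (r : ℝ) : ∑ s : E → Bool, wl r s = (1 + r) ^ Fintype.card E := by
  unfold wl
  rw [← Fintype.prod_sum (fun (_ : E) (b : Bool) => if b then r else 1)]
  simp [add_comm]

lemma wl_one {r : ℝ} (hr : 0 < r) (e : E) :
    ∑ s : E → Bool, wl r s * (if s e = false then 1 else 0)
      = (1 + r) ^ Fintype.card E * (1 + r)⁻¹ := by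
  have h1 : ∀ s : E → Bool, wl r s * (if s e = false then 1 else 0)
      = ∏ x, ((if s x then r else 1) * (if x = e then (if s x = false then 1 else 0) else 1)) := by
    intro s
    rw [Finset.prod_mul_distrib, Finset.prod_ite_eq']
    simp [wl]
  simp only [h1]
  rw [← Fintype.prod_sum (fun (x : E) (b : Bool) => (if b then r else 1) *
    (if x = e then (if b = false then 1 else 0) else (1 : ℝ)))]
  have h2 : ∀ x : E, ∑ b : Bool, (if b then r else 1) *
      (if x = e then (if b = false then 1 else 0) else (1 : ℝ))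
      = (1 + r) * (if x = e then (1 + r)⁻¹ else 1) := by
    intro x
    by_cases h : x = e
    · simp [h]; field_simp
    · simp [h, add_comm]
  simp only [h2]
  rw [Finset.prod_mul_distrib, Finset.prod_ite_eq']
  simp

lemma wl_two {r : ℝ} (hr : 0 < r) {e e' : E} (h : e ≠ e') (b' : Bool) :
    ∑ s : E → Bool, wl r s * (if s e = false ∧ s e' = b' then 1 else 0)
      = (1 + r) ^ Fintype.card E * ((1 + r)⁻¹ ^ 2 * (if b' then r else 1)) := by
  have h1 : ∀ s : E → Bool, wl r s * (if s e = false ∧ s e' = b' then 1 else 0)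
      = ∏ x, ((if s x then r else 1) * ((if x = e then (if s x = false then 1 else 0) else 1) *
        (if x = e' then (if s x = b' then 1 else 0) else 1))) := by
    intro s
    rw [Finset.prod_mul_distrib, Finset.prod_mul_distrib, Finset.prod_ite_eq', Finset.prod_ite_eq']
    simp only [wl, Finset.mem_univ, if_true]
    by_cases a : s e = false <;> by_cases b : s e' = b' <;> simp [a, b]
  simp only [h1]
  rw [← Fintype.prod_sum (fun (x : E) (b : Bool) => (if b then r else 1) *
    ((if x = e then (if b = false then 1 else 0) else (1 : ℝ)) *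
      (if x = e' then (if b = b' then 1 else 0) else 1)))]
  have h2 : ∀ x : E, ∑ b : Bool, (if b then r else 1) *
      ((if x = e then (if b = false then 1 else 0) else (1 : ℝ)) *
      (if x = e' then (if b = b' then 1 else 0) else 1))
      = (1 + r) * ((if x = e then (1 + r)⁻¹ else 1) *
        (if x = e' then (1 + r)⁻¹ * (if b' then r else 1) else 1)) := by
    intro x
    by_cases a : x = e
    · have : x ≠ e' := a ▸ h
      simp [a, h]; field_simp
    · by_cases b : x = e'
      · cases b' <;> simp [b, h.symm] <;> field_simp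
      · simp [a, b, add_comm]
  simp only [h2]
  rw [Finset.prod_mul_distrib, Finset.prod_mul_distrib, Finset.prod_ite_eq', Finset.prod_ite_eq']
  simp only [Finset.prod_const, Finset.card_univ, Finset.mem_univ, if_true]
  ring

/-- the condition on one layer -/
def CC (s : E → Bool) (e1 e2 e3 e4 : E) : Prop :=
  (e1 = e2 ∧ e3 = e4 ∧ s e1 = false ∧ s e3 = false) ∨
    (e1 = e4 ∧ e2 = e3 ∧ e1 ≠ e2 ∧ s e1 = false ∧ s e2 = true)

instance (s : E → Bool) (e1 e2 e3 e4 : E) : Decidable (CC s e1 e2 e3 e4) := by
  unfold CC; infer_instance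

lemma wl_CC {r : ℝ} (hr : 0 < r) (e1 e2 e3 e4 : E) :
    ∑ s : E → Bool, wl r s * (if CC s e1 e2 e3 e4 then 1 else 0)
      ≤ (1 + r) ^ Fintype.card E * (1 + r)⁻¹ ^ 2 *
        ((if e1 = e2 ∧ e3 = e4 then 1 else 0) + r * (if e1 = e4 ∧ e2 = e3 then 1 else 0)) := by
  by_cases h12 : e1 = e2
  · subst h12
    by_cases h34 : e3 = e4
    · subst h34
      by_cases h13 : e1 = e3
      · subst h13
        have := wl_one hr e1
        simp only [CC, true_and, and_self, ne_eq, not_true_eq_false, false_and, or_false, if_true]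
        rw [this]
        apply le_of_eq
        field_simp
      · have := wl_two hr h13 false
        simp only [CC, true_and, ne_eq, not_true_eq_false, false_and, and_false, or_false, if_true,
          h13, if_false]
        rw [this]
        simp
    · simp only [CC, h34, false_and, and_false, ne_eq, not_true_eq_false, or_false, if_false,
        mul_zero, Finset.sum_const_zero]
      split_ifs <;> positivity
  · by_cases h : e1 = e4 ∧ e2 = e3
    · obtain ⟨rfl, rfl⟩ := h
      have := wl_two hr h12 true
      simp only [CC, h12, false_and, true_and, ne_eq, not_false_eq_true, false_or, if_false,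
        if_true]
      rw [this]
      simp [mul_assoc]
    · have : ∀ s : E → Bool, ¬ CC s e1 e2 e3 e4 := by
        rintro s (h1 | h1)
        · exact h12 h1.1
        · exact h ⟨h1.1, h1.2.1⟩
      simp [this, h12, h]

end

section
variable {V : Type} [Fintype V] [DecidableEq V]

/-- first pairing -/
def io (q : V × V × V × V) : ℝ := if q.1 = q.2.1 ∧ q.2.2.1 = q.2.2.2 then 1 else 0
/-- second pairing -/
def so (q : V × V × V × V) : ℝ := if q.1 = q.2.2.2 ∧ q.2.1 = q.2.2.1 then 1 else 0

/-- transfer matrix -/
def Kt (r : ℝ) : Matrix (V × V × V × V) (V × V × V × V) ℝ :=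
  Matrix.of fun q q' => io q * io q' + r * (so q * so q')

omit [Fintype V] in
lemma io_nonneg (q : V × V × V × V) : 0 ≤ io q := by unfold io; split_ifs <;> norm_num
omit [Fintype V] in
lemma so_nonneg (q : V × V × V × V) : 0 ≤ so q := by unfold so; split_ifs <;> norm_num

lemma io_io : ∑ q : V × V × V × V, io q * io q = (Fintype.card V : ℝ) ^ 2 := by
  simp [io, Fintype.sum_prod_type, ite_and, sq]

lemma so_so : ∑ q : V × V × V × V, so q * so q = (Fintype.card V : ℝ) ^ 2 := by
  simp [so, Fintype.sum_prod_type, ite_and, sq]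

lemma so_io : ∑ q : V × V × V × V, so q * io q = (Fintype.card V : ℝ) := by
  simp [so, io, Fintype.sum_prod_type, ite_and]

lemma transfer (z : V) (r ρ : ℕ → ℝ) (μ : ℝ) (hr : ∀ t, 0 < r t) (h0 : ρ 0 = 1)
    (hρ : ∀ t, ρ (t + 1) = ρ t * r t) (h1 : ∀ t, ρ t ≤ μ) (h2 : ∀ t, 1 ≤ ρ t * μ) (m : ℕ) :
    ∀ q' : V × V × V × V, (List.ofFn fun t : Fin (m + 1) => Kt (V := V) (r t)).prod (z, z, z, z) q'
      ≤ ((Fintype.card V : ℝ) ^ 2 + μ * Fintype.card V) ^ m * (io q' + ρ (m + 1) * so q') := by
  have hpos : ∀ t, 0 < ρ t := by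
    intro t
    induction t with
    | zero => rw [h0]; exact one_pos
    | succ t ih => rw [hρ]; exact mul_pos ih (hr t)
  have hμ : 0 < μ := lt_of_lt_of_le (hpos 0) (h1 0)
  induction m with
  | zero =>
    intro q'
    simp [Kt, io, so, hρ, h0]
  | succ m ih =>
    intro q'
    rw [List.ofFn_succ_last, List.prod_append, List.prod_singleton, Matrix.mul_apply]
    simp only [Fin.val_castSucc, Fin.val_last]
    set w : ℝ := (Fintype.card V : ℝ) with hw
    have hw0 : 0 ≤ w := by positivity
    have a1 := io_nonneg q'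
    have a2 := so_nonneg q'
    have a3 := hr (m + 1)
    have a4 := hpos (m + 1)
    calc _ ≤ ∑ q : V × V × V × V, ((w ^ 2 + μ * w) ^ m * (io q + ρ (m + 1) * so q)) *
          (io q * io q' + r (m + 1) * (so q * so q')) := by
          apply Finset.sum_le_sum
          intro q _
          have b1 := io_nonneg q
          have b2 := so_nonneg q
          exact mul_le_mul_of_nonneg_right (ih q) (by simp only [Kt, Matrix.of_apply]; positivity)
      _ = (w ^ 2 + μ * w) ^ m * ((∑ q : V × V × V × V, io q * io q) * io q'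
          + ρ (m + 1) * (∑ q : V × V × V × V, so q * io q) * io q'
          + r (m + 1) * (∑ q : V × V × V × V, so q * io q) * so q'
          + ρ (m + 1) * r (m + 1) * (∑ q : V × V × V × V, so q * so q) * so q') := by
          simp only [Finset.mul_sum, Finset.sum_mul, ← Finset.sum_add_distrib]
          exact Finset.sum_congr rfl fun q _ => by ring
      _ = (w ^ 2 + μ * w) ^ m * ((w ^ 2 + ρ (m + 1) * w) * io q'
          + r (m + 1) * (1 * w + ρ (m + 1) * w ^ 2) * so q') := by
          rw [io_io, so_io, so_so]; ring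
      _ ≤ (w ^ 2 + μ * w) ^ m * ((w ^ 2 + μ * w) * io q'
          + r (m + 1) * ((ρ (m + 1) * μ) * w + ρ (m + 1) * w ^ 2) * so q') := by
          gcongr
          · exact h1 _
          · exact h2 _
      _ = _ := by rw [hρ (m + 1)]; ring

lemma ones_prod (m : ℕ) : ∀ a b : V, (List.ofFn fun _ : Fin (m + 1) =>
    (Matrix.of fun _ _ => 1 : Matrix V V ℝ)).prod a b = (Fintype.card V : ℝ) ^ m := by
  induction m with
  | zero => intro a b; simp
  | succ m ih =>
    intro a b
    rw [List.ofFn_succ, List.prod_cons, Matrix.mul_apply]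
    simp only [ih]
    simp [pow_succ']

end

end Vale.Agent.P346
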