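import Mathlib

namespace Vale.Agent.P346

open Finset Matrix

lemma rank_add_le' {K m n : Type*} [Field K] [Fintype m] [Fintype n] (A B : Matrix m n K) :
    (A + B).rank ≤ A.rank + B.rank := by
  unfold Matrix.rank
  refine le_trans (Submodule.finrank_mono ?_)
    (Submodule.finrank_add_le_finrank_add_finrank _ _)
  rintro x ⟨y, rfl⟩
  rw [Matrix.mulVecLin_add]
  exact Submodule.add_mem_sup ⟨y, rfl⟩ ⟨y, rfl⟩

lemma rank_smul_le' {K m n : Type*} [Field K] [Fintype n] (c : K) (A : Matrix m n K) :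
    (c • A).rank ≤ A.rank := by
  by_cases h : c = 0
  · simp [h]
  · rw [Matrix.rank_smul_of_mem_nonZeroDivisors A (mem_nonZeroDivisors_of_ne_zero h)]

lemma rank_map_field {K L m : Type*} [Field K] [Field L] [Fintype m] [DecidableEq m]
    (f : K →+* L) (A : Matrix m m K) : (A.map f).rank = A.rank := by
  classical
  obtain ⟨P, Q, D, h⟩ := Matrix.Pivot.exists_list_transvec_mul_diagonal_mul_list_transvec A
  have hP := Matrix.TransvectionStruct.det_toMatrix_prod P
  have hQ := Matrix.TransvectionStruct.det_toMatrix_prod Q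
  generalize (P.map Matrix.TransvectionStruct.toMatrix).prod = P' at *
  generalize (Q.map Matrix.TransvectionStruct.toMatrix).prod = Q' at *
  have hP' : (P'.map f).det = 1 := by
    rw [← RingHom.mapMatrix_apply, ← RingHom.map_det, hP, map_one]
  have hQ' : (Q'.map f).det = 1 := by
    rw [← RingHom.mapMatrix_apply, ← RingHom.map_det, hQ, map_one]
  rw [h, Matrix.map_mul, Matrix.map_mul, Matrix.diagonal_map (map_zero f),
    Matrix.rank_mul_eq_left_of_isUnit_det _ _ (by rw [hQ']; exact isUnit_one),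
    Matrix.rank_mul_eq_right_of_isUnit_det _ _ (by rw [hP']; exact isUnit_one),
    Matrix.rank_mul_eq_left_of_isUnit_det _ _ (by rw [hQ]; exact isUnit_one),
    Matrix.rank_mul_eq_right_of_isUnit_det _ _ (by rw [hP]; exact isUnit_one),
    Matrix.rank_diagonal, Matrix.rank_diagonal]
  simp

lemma rank_nat {K m : Type*} [Field K] [CharZero K] [Fintype m] [DecidableEq m]
    (A : Matrix m m ℕ) : (A.map (Nat.cast : ℕ → K)).rank = (A.map (Nat.cast : ℕ → ℝ)).rank := by
  have h1 := rank_map_field (algebraMap ℚ K) (A.map (Nat.cast : ℕ → ℚ))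
  have h2 := rank_map_field (algebraMap ℚ ℝ) (A.map (Nat.cast : ℕ → ℚ))
  rw [Matrix.map_map] at h1 h2
  have e1 : (algebraMap ℚ K) ∘ (Nat.cast : ℕ → ℚ) = Nat.cast := by funext x; simp
  have e2 : (algebraMap ℚ ℝ) ∘ (Nat.cast : ℕ → ℚ) = Nat.cast := by funext x; simp
  rw [e1] at h1
  rw [e2] at h2
  rw [h1, h2]

lemma trace_sq_le {m : Type*} [Fintype m] [DecidableEq m] (A : Matrix m m ℝ) :
    (Aᵀ * A).trace ^ 2 ≤ A.rank * ((Aᵀ * A) * (Aᵀ * A)).trace := by
  have hB : (Aᵀ * A).IsHermitian := by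
    simpa using Matrix.isHermitian_conjTranspose_mul_self A
  rw [← Matrix.rank_transpose_mul_self A]
  generalize Aᵀ * A = B at *
  have h1 := hB.trace_eq_sum_eigenvalues
  have h2 : (B * B).trace = ∑ i, hB.eigenvalues i ^ 2 := by
    conv_lhs => rw [hB.spectral_theorem, ← map_mul, Unitary.conjStarAlgAut_apply,
      Matrix.trace_mul_cycle]
    simp [Matrix.diagonal_mul_diagonal, sq]
  rw [h1, h2, hB.rank_eq_card_non_zero_eigs, Fintype.card_subtype]
  simp only [RCLike.ofReal_real_eq_id, id]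
  rw [← Finset.sum_filter_ne_zero]
  refine (sq_sum_le_card_mul_sum_sq).trans ?_
  gcongr
  exact Finset.filter_subset _ _

lemma titu {ι : Type*} (s : Finset ι) (w r a b : ι → ℝ) (hw : ∀ i, 0 ≤ w i) (hr : ∀ i, 0 ≤ r i)
    (hb : ∀ i, 0 ≤ b i) (h : ∀ i, a i ^ 2 ≤ r i * b i) :
    (∑ i ∈ s, w i * a i) ^ 2 ≤ (∑ i ∈ s, w i * r i) * ∑ i ∈ s, w i * b i := by
  apply Finset.sum_sq_le_sum_mul_sum_of_sq_le_mul
  · intro i _; exact mul_nonneg (hw i) (hr i)
  · intro i _; exact mul_nonneg (hw i) (hb i)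
  · intro i _
    calc (w i * a i) ^ 2 = w i ^ 2 * a i ^ 2 := by ring
      _ ≤ w i ^ 2 * (r i * b i) := by gcongr; exact h i
      _ = _ := by ring

lemma prod_entry {R V : Type*} [CommSemiring R] [Fintype V] [DecidableEq V] (m : ℕ) :
    ∀ (A : Fin m → Matrix V V R) (a b : V), (List.ofFn A).prod a b =
      ∑ v : Fin (m + 1) → V, if v 0 = a ∧ v (Fin.last m) = b then
        ∏ t, A t (v t.castSucc) (v t.succ) else 0 := by
  induction m with
  | zero =>
    intro A a b
    rw [← (Equiv.funUnique (Fin 1) V).symm.sum_comp]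
    by_cases h : a = b
    · subst h; simp
    · simp only [List.ofFn_zero, List.prod_nil, Matrix.one_apply_ne h]
      symm
      apply Finset.sum_eq_zero
      intro x _
      rw [if_neg]
      rintro ⟨h1, h2⟩
      exact h (h1.symm.trans h2)
  | succ m ih =>
    intro A a b
    rw [List.ofFn_succ, List.prod_cons, Matrix.mul_apply,
      ← (Fin.consEquiv (fun _ : Fin (m + 2) => V)).sum_comp, Fintype.sum_prod_type]
    simp only [ih, Finset.mul_sum]
    rw [Finset.sum_comm]
    conv_rhs => rw [Finset.sum_comm]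
    apply Finset.sum_congr rfl
    intro v _
    rw [Finset.sum_eq_single (v 0), Finset.sum_eq_single a]
    · simp [Fin.prod_univ_succ, Fin.consEquiv, ← Fin.succ_last, ← Fin.succ_castSucc]
    · intro x _ hx
      rw [if_neg]
      rintro ⟨h1, -⟩
      exact hx h1
    · simp
    · intro x _ hx
      rw [if_neg, mul_zero]
      rintro ⟨h1, -⟩
      exact hx h1.symm
    · simp

end Vale.Agent.P346
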