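import Vale.Agent.P346.Lin

namespace Vale.Agent.P346

open Finset Matrix MvPolynomial

section
variable {K : Type*} [Field K] {σ : Type} [Fintype σ] [DecidableEq σ]

/-- squarefree exponent vector -/
noncomputable def ind (S : σ → Bool) : σ →₀ ℕ :=
  Finsupp.equivFunOnFinite.symm (fun e => if S e then 1 else 0)

omit [DecidableEq σ] in
@[simp] lemma ind_apply (S : σ → Bool) (e : σ) : ind S e = if S e then 1 else 0 := rfl

omit [DecidableEq σ] in
lemma ind_inj : Function.Injective (ind : (σ → Bool) → σ →₀ ℕ) := by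
  intro S S' h
  funext e
  have := DFunLike.congr_fun h e
  simp only [ind_apply] at this
  cases h1 : S e <;> cases h2 : S' e <;> simp_all

/-- multiplication by `f` in the squarefree algebra -/
noncomputable def TT (f : MvPolynomial σ K) : Matrix (σ → Bool) (σ → Bool) K :=
  Matrix.of fun U S => coeff (ind U) (f * monomial (ind S) 1)

lemma coeff_mul_ind (f P : MvPolynomial σ K) (U : σ → Bool) :
    coeff (ind U) (f * P) = ∑ W, TT f U W * coeff (ind W) P := by
  induction P using MvPolynomial.induction_on' with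
  | monomial m c =>
    by_cases h : ∃ W, m = ind W
    · obtain ⟨W, rfl⟩ := h
      rw [Finset.sum_eq_single W]
      · simp only [TT, Matrix.of_apply, coeff_mul_monomial', coeff_monomial, if_true]
        split_ifs <;> simp
      · intro W' _ hW
        rw [coeff_monomial, if_neg (fun h => hW (ind_inj h).symm), mul_zero]
      · simp
    · rw [coeff_mul_monomial', if_neg]
      · symm
        apply Finset.sum_eq_zero
        intro W _
        rw [coeff_monomial, if_neg (fun h' => h ⟨W, h'⟩), mul_zero]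
      · intro hle
        apply h
        refine ⟨fun e => decide (m e = 1), ?_⟩
        ext e
        have := hle e
        simp only [ind_apply] at this ⊢
        split_ifs at this ⊢ <;> simp_all <;> omega
  | add p q hp hq =>
    simp only [mul_add, coeff_add, hp, hq, Finset.sum_add_distrib]

lemma TT_mul (f g : MvPolynomial σ K) : TT (f * g) = TT f * TT g := by
  ext U S
  rw [Matrix.mul_apply]
  simp only [TT, Matrix.of_apply, mul_assoc]
  exact coeff_mul_ind f _ U

/-- bidegree of a squarefree monomial -/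
noncomputable def bdeg (wt : σ → ℕ × ℕ) (S : σ → Bool) : ℕ × ℕ := Finsupp.weight wt (ind S)

omit [DecidableEq σ] in
lemma TT_deg {wt : σ → ℕ × ℕ} {g : MvPolynomial σ K} {δ : ℕ × ℕ}
    (hg : IsWeightedHomogeneous wt g δ) {W S : σ → Bool} (h : TT g W S ≠ 0) :
    bdeg wt W = bdeg wt S + δ := by
  have := hg.mul (isWeightedHomogeneous_monomial wt (ind S) (1 : K) rfl)
  rw [add_comm]
  exact this h

/-- the block of `TT f` from bidegree `δ` to bidegree `δ + κ` -/
noncomputable def MM (wt : σ → ℕ × ℕ) (κ δ : ℕ × ℕ) (f : MvPolynomial σ K) :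
    Matrix (σ → Bool) (σ → Bool) K :=
  Matrix.of fun U S => if bdeg wt S = δ ∧ bdeg wt U = δ + κ then TT f U S else 0

/-- square root of the inverse weight -/
noncomputable def th (α β : ℝ) (δ : ℕ × ℕ) : ℝ := β ^ δ.2 / α ^ δ.1

lemma th_pos {α β : ℝ} (hα : 0 < α) (hβ : 0 < β) (δ : ℕ × ℕ) : 0 < th α β δ := by
  unfold th; positivity

lemma th_add (α β : ℝ) (δ δ' : ℕ × ℕ) : th α β (δ + δ') = th α β δ * th α β δ' := by
  simp only [th, Prod.fst_add, Prod.snd_add, pow_add]; ring

/-- the weighted rank -/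
noncomputable def Phi (wt : σ → ℕ × ℕ) (α β : ℝ) (κ : ℕ × ℕ) (f : MvPolynomial σ K) : ℝ :=
  ∑ δ ∈ Finset.univ.image (bdeg wt), (th α β δ ^ 2)⁻¹ * (MM wt κ δ f).rank

/-- the total weight -/
noncomputable def DD (wt : σ → ℕ × ℕ) (α β : ℝ) : ℝ := ∑ S, (th α β (bdeg wt S) ^ 2)⁻¹

variable {wt : σ → ℕ × ℕ} {α β : ℝ} {κ : ℕ × ℕ}

lemma DD_nonneg : 0 ≤ DD wt α β := Finset.sum_nonneg fun _ _ => by positivity

lemma Phi_zero : Phi wt α β κ (0 : MvPolynomial σ K) = 0 := by
  apply Finset.sum_eq_zero
  intro δ _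
  have : MM wt κ δ (0 : MvPolynomial σ K) = 0 := by ext; simp [MM, TT]
  simp [this]

lemma Phi_add (f g : MvPolynomial σ K) :
    Phi wt α β κ (f + g) ≤ Phi wt α β κ f + Phi wt α β κ g := by
  unfold Phi
  rw [← Finset.sum_add_distrib]
  apply Finset.sum_le_sum
  intro δ _
  have : MM wt κ δ (f + g) = MM wt κ δ f + MM wt κ δ g := by
    ext U S
    simp only [MM, TT, Matrix.of_apply, Matrix.add_apply, add_mul, coeff_add]
    split_ifs <;> simp
  rw [this, ← mul_add]
  gcongr
  exact_mod_cast rank_add_le' _ _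

lemma Phi_smul (c : K) (f : MvPolynomial σ K) : Phi wt α β κ (c • f) ≤ Phi wt α β κ f := by
  apply Finset.sum_le_sum
  intro δ _
  have : MM wt κ δ (c • f) = c • MM wt κ δ f := by
    ext U S
    simp only [MM, TT, Matrix.of_apply, Matrix.smul_apply, smul_mul_assoc, coeff_smul]
    split_ifs <;> simp
  rw [this]
  gcongr
  exact rank_smul_le' _ _

lemma Phi_sum {ι : Type*} (s : Finset ι) (f : ι → MvPolynomial σ K) :
    Phi wt α β κ (∑ i ∈ s, f i) ≤ ∑ i ∈ s, Phi wt α β κ (f i) :=
  Finset.le_sum_of_subadditive _ Phi_zero.le Phi_add s f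

lemma Phi_two (hα : 0 < α) (hβ : 0 < β) {g h : MvPolynomial σ K} {δ1 δ2 : ℕ × ℕ}
    (hg : IsWeightedHomogeneous wt g δ1) (hh : IsWeightedHomogeneous wt h δ2) :
    Phi wt α β κ (g * h) ≤ DD wt α β * th α β κ * (th α β δ1 / th α β δ2) := by
  have p1 := th_pos hα hβ δ1
  have p2 := th_pos hα hβ δ2
  by_cases hκ : δ1 + δ2 = κ
  · have e : th α β κ * (th α β δ1 / th α β δ2) = th α β δ1 ^ 2 := by
      rw [← hκ, th_add]; field_simp
    rw [mul_assoc, e]
    have h1 : ∀ δ, (MM wt κ δ (g * h)).rank ≤
        (Finset.univ.filter (fun W => bdeg wt W = δ + δ1)).card := by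
      intro δ
      have : MM wt κ δ (g * h) = (Matrix.of fun U W => if bdeg wt U = δ + κ then TT h U W else 0) *
          (Matrix.of fun W S => if bdeg wt S = δ then TT g W S else 0) := by
        ext U S
        rw [mul_comm g h]
        simp only [MM, TT_mul, Matrix.of_apply, Matrix.mul_apply]
        by_cases a : bdeg wt S = δ <;> by_cases b : bdeg wt U = δ + κ <;> simp [a, b]
      rw [this]
      refine (Matrix.rank_mul_le_right _ _).trans (Matrix.rank_le_card_of_support_subset _ _ ?_)
      intro W hW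
      obtain ⟨S, hS⟩ := Function.ne_iff.1 hW
      simp only [Matrix.row, Matrix.of_apply, Pi.zero_apply, ne_eq, ite_eq_right_iff,
        Classical.not_imp] at hS
      simp only [Finset.coe_filter, Finset.mem_univ, true_and, Set.mem_ofPred_eq]
      rw [TT_deg hg hS.2, hS.1]
    calc Phi wt α β κ (g * h) ≤ ∑ δ ∈ Finset.univ.image (bdeg wt),
          ∑ W ∈ Finset.univ.filter (fun W => bdeg wt W = δ + δ1),
            (th α β (bdeg wt W) ^ 2)⁻¹ * th α β δ1 ^ 2 := by
          apply Finset.sum_le_sum
          intro δ _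
          have p3 := th_pos hα hβ δ
          rw [Finset.sum_congr rfl (g := fun _ => (th α β δ ^ 2)⁻¹) (fun W hW => by
            rw [(Finset.mem_filter.1 hW).2, th_add]; field_simp)]
          rw [Finset.sum_const, nsmul_eq_mul, mul_comm]
          gcongr
          exact h1 δ
      _ = ∑ W ∈ (Finset.univ.image (bdeg wt)).biUnion
          (fun δ => Finset.univ.filter (fun W => bdeg wt W = δ + δ1)),
            (th α β (bdeg wt W) ^ 2)⁻¹ * th α β δ1 ^ 2 := by
          rw [Finset.sum_biUnion]
          intro δ _ δ' _ hne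
          rw [Function.onFun, Finset.disjoint_filter]
          intro W _ a b
          exact hne (add_right_cancel (a.symm.trans b))
      _ ≤ ∑ W, (th α β (bdeg wt W) ^ 2)⁻¹ * th α β δ1 ^ 2 :=
          Finset.sum_le_sum_of_subset_of_nonneg (Finset.subset_univ _) fun _ _ _ => by positivity
      _ = _ := by rw [DD, Finset.sum_mul]
  · have : Phi wt α β κ (g * h) = 0 := by
      apply Finset.sum_eq_zero
      intro δ _
      have : MM wt κ δ (g * h) = 0 := by
        ext U S
        simp only [MM, Matrix.of_apply, Matrix.zero_apply, ite_eq_right_iff]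
        rintro ⟨a, b⟩
        by_contra hne
        have := TT_deg (hg.mul hh) hne
        rw [a, b] at this
        exact hκ (add_left_cancel this).symm
      simp [this]
    rw [this]
    have := th_pos hα hβ κ
    have : 0 ≤ DD wt α β := DD_nonneg
    positivity

omit [Fintype σ] [DecidableEq σ] in
lemma hom_split (hwt : ∀ e, (wt e).1 + (wt e).2 = 1) {Q : MvPolynomial σ K} {d : ℕ}
    (hQ : Q.IsHomogeneous d) :
    Q = ∑ j ∈ Finset.range (d + 1), weightedHomogeneousComponent wt (j, d - j) Q := by
  ext m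
  rw [coeff_sum]
  simp only [coeff_weightedHomogeneousComponent]
  by_cases h : coeff m Q = 0
  · simp [h]
  have h1 : Finsupp.weight 1 m = d := hQ h
  have h2 : (Finsupp.weight wt m).1 + (Finsupp.weight wt m).2 = d := by
    rw [← h1]
    simp only [Finsupp.weight_apply, Finsupp.sum, Prod.fst_sum, Prod.snd_sum,
      ← Finset.sum_add_distrib, Prod.smul_fst, Prod.smul_snd, smul_eq_mul, ← mul_add, hwt,
      Pi.one_apply]
  rw [Finset.sum_eq_single (Finsupp.weight wt m).1]
  · rw [if_pos]
    exact Prod.ext rfl (by simp only; omega)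
  · intro j _ hj
    rw [if_neg]
    intro h3
    exact hj (by rw [h3])
  · intro h3
    exact absurd (Finset.mem_range.2 (by omega)) h3

/-- the loss factor of a homogeneous factor of degree `d` -/
noncomputable def cc (α β : ℝ) (d : ℕ) : ℝ :=
  ∑ j ∈ Finset.range (d + 1), min (th α β (j, d - j)) (th α β (j, d - j))⁻¹

lemma cc_nonneg (hα : 0 < α) (hβ : 0 < β) (d : ℕ) : 0 ≤ cc α β d :=
  Finset.sum_nonneg fun _ _ => le_min (th_pos hα hβ _).le (inv_pos.2 (th_pos hα hβ _)).le

lemma Phi_prod (hα : 0 < α) (hβ : 0 < β) (hwt : ∀ e, (wt e).1 + (wt e).2 = 1)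
    (m : Multiset (MvPolynomial σ K × ℕ)) (hm : ∀ x ∈ m, x.1.IsHomogeneous x.2) :
    ∀ (g h : MvPolynomial σ K) (δ1 δ2 : ℕ × ℕ), IsWeightedHomogeneous wt g δ1 →
      IsWeightedHomogeneous wt h δ2 →
    Phi wt α β κ (g * h * (m.map Prod.fst).prod) ≤ DD wt α β * th α β κ * (th α β δ1 / th α β δ2)
      * (m.map (fun x => cc α β x.2)).prod := by
  induction m using Multiset.induction_on with
  | empty =>
    intro g h δ1 δ2 hg hh
    simpa using Phi_two hα hβ hg hh
  | cons x m ih =>
    intro g h δ1 δ2 hg hh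
    obtain ⟨Q, d⟩ := x
    have hQ : Q.IsHomogeneous d := hm _ (Multiset.mem_cons_self _ _)
    have ih' := ih (fun x hx => hm x (Multiset.mem_cons_of_mem hx))
    simp only [Multiset.map_cons, Multiset.prod_cons]
    rw [hom_split hwt hQ, Finset.sum_mul, Finset.mul_sum]
    refine (Phi_sum _ _).trans ?_
    rw [cc, Finset.sum_mul, Finset.mul_sum]
    apply Finset.sum_le_sum
    intro j _
    have hj := weightedHomogeneousComponent_isWeightedHomogeneous (w := wt) (j, d - j) Q
    have p1 := th_pos hα hβ δ1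
    have p2 := th_pos hα hβ δ2
    have p3 := th_pos hα hβ (j, d - j)
    generalize weightedHomogeneousComponent wt (j, d - j) Q = Qj at *
    rcases min_choice (th α β (j, d - j)) (th α β (j, d - j))⁻¹ with e | e
    · have := ih' (g * Qj) h _ _ (hg.mul hj) hh
      rw [th_add] at this
      rw [e, show g * h * (Qj * (m.map Prod.fst).prod) = g * Qj * h * (m.map Prod.fst).prod by ring]
      refine this.trans (le_of_eq ?_)
      ring
    · have := ih' g (h * Qj) _ _ hg (hh.mul hj)
      rw [th_add] at this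
      rw [e, show g * h * (Qj * (m.map Prod.fst).prod) = g * (h * Qj) * (m.map Prod.fst).prod by ring]
      refine this.trans (le_of_eq ?_)
      field_simp

lemma Phi_prod' (hα : 0 < α) (hβ : 0 < β) (hwt : ∀ e, (wt e).1 + (wt e).2 = 1)
    (m : Multiset (MvPolynomial σ K × ℕ)) (hm : ∀ x ∈ m, x.1.IsHomogeneous x.2) :
    Phi wt α β κ (m.map Prod.fst).prod ≤ DD wt α β * th α β κ
      * (m.map (fun x => cc α β x.2)).prod := by
  have := Phi_prod (κ := κ) hα hβ hwt m hm 1 1 0 0 (isWeightedHomogeneous_one K wt)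
    (isWeightedHomogeneous_one K wt)
  simpa [th] using this

end

end Vale.Agent.P346
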