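import Vale.Agent.P346.Layer
import Vale.Agent.P346.Meas
import Vale.Agent.P346.Defs

namespace Vale.Agent.P346

open Finset Matrix MvPolynomial

lemma th_sum {ι : Type*} (α β : ℝ) (s : Finset ι) (f : ι → ℕ × ℕ) :
    th α β (∑ i ∈ s, f i) = ∏ i ∈ s, th α β (f i) := by
  classical
  induction s using Finset.induction_on with
  | empty => simp [th]
  | insert a s h ih => rw [Finset.sum_insert h, Finset.prod_insert h, th_add, ih]

lemma bdeg_eq {σ : Type} [Fintype σ] (wt : σ → ℕ × ℕ) (S : σ → Bool) :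
    bdeg wt S = ∑ e, if S e then wt e else 0 := by
  rw [bdeg, Finsupp.weight_apply, Finsupp.sum_fintype _ _ (by simp)]
  apply Finset.sum_congr rfl
  intro e _
  rw [ind_apply]
  split_ifs <;> simp

section
variable {w d : ℕ} [NeZero w]

/-- paths from the first vertex to the first vertex -/
def Pth (w d : ℕ) [NeZero w] : Finset (Fin (d + 1) → Fin w) :=
  Finset.univ.filter (fun v => v 0 = 0 ∧ v (Fin.last d) = 0)

/-- the edge of a path in layer `t` -/
def edge (v : Fin (d + 1) → Fin w) (t : Fin d) : Fin w × Fin w := (v t.castSucc, v t.succ)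

/-- the edge set of a path -/
def pset (v : Fin (d + 1) → Fin w) : Fin d × Fin w × Fin w → Bool :=
  fun e => decide (e.2 = edge v e.1)

/-- adding the path `v` to `S` gives `U` -/
def rel (v : Fin (d + 1) → Fin w) (S U : Fin d × Fin w × Fin w → Bool) : Prop :=
  ind (pset v) + ind S = ind U

noncomputable instance (v : Fin (d + 1) → Fin w) (S U : Fin d × Fin w × Fin w → Bool) :
    Decidable (rel v S U) := by unfold rel; infer_instance

omit [NeZero w] in
lemma ind_pset (v : Fin (d + 1) → Fin w) :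
    ind (pset v) = ∑ t, Finsupp.single (t, edge v t) 1 := by
  ext ⟨t, x⟩
  simp only [ind_apply, pset, Finsupp.coe_finset_sum, Finset.sum_apply, Finsupp.single_apply,
    Prod.mk.injEq, decide_eq_true_eq]
  rw [Finset.sum_eq_single t]
  · simp [eq_comm]
  · intro b _ hb; simp [hb]
  · simp

lemma IMM_eq (K : Type*) [Field K] :
    IMM K w d = ∑ v ∈ Pth w d, monomial (ind (pset v)) 1 := by
  rw [IMM, prod_entry, Pth, Finset.sum_filter]
  apply Finset.sum_congr rfl
  intro v _
  split_ifs
  · rw [ind_pset, monomial_sum_one]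
    rfl
  · rfl

/-- number of paths leading from `S` to `U` -/
noncomputable def aN (U S : Fin d × Fin w × Fin w → Bool) : ℕ :=
  ((Pth w d).filter (fun v => rel v S U)).card

lemma TT_IMM (K : Type*) [Field K] (U S : Fin d × Fin w × Fin w → Bool) :
    TT (IMM K w d) U S = (aN U S : K) := by
  simp only [TT, Matrix.of_apply, IMM_eq, Finset.sum_mul, coeff_sum, monomial_mul, coeff_monomial,
    mul_one]
  rw [aN, Finset.card_filter]
  push_cast
  rfl

omit [NeZero w] in
lemma rel_CC {v1 v2 v3 v4 : Fin (d + 1) → Fin w} {S S' U U' : Fin d × Fin w × Fin w → Bool}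
    (h1 : rel v1 S U) (h2 : rel v2 S' U) (h3 : rel v3 S' U') (h4 : rel v4 S U') (t : Fin d) :
    CC (fun x => S (t, x)) (edge v1 t) (edge v2 t) (edge v3 t) (edge v4 t) := by
  have k : ∀ {v : Fin (d + 1) → Fin w} {S U : Fin d × Fin w × Fin w → Bool}, rel v S U → ∀ x,
      (U (t, x) = true ↔ (x = edge v t ∨ S (t, x) = true)) ∧ S (t, edge v t) = false := by
    intro v S U h x
    have a := DFunLike.congr_fun h (t, x)
    have b := DFunLike.congr_fun h (t, edge v t)
    simp only [Finsupp.add_apply, ind_apply, pset, decide_eq_true_eq, if_true] at a b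
    constructor
    · by_cases c : x = edge v t <;> cases e1 : S (t, x) <;> cases e2 : U (t, x) <;> simp_all
    · cases e1 : S (t, edge v t) <;> cases e2 : U (t, edge v t) <;> simp_all
  have a1 := fun x => (k h1 x).1
  have a2 := fun x => (k h2 x).1
  have a3 := fun x => (k h3 x).1
  have a4 := fun x => (k h4 x).1
  have b1 := (k h1 (edge v1 t)).2
  have b2 := (k h2 (edge v1 t)).2
  have b3 := (k h3 (edge v1 t)).2
  have b4 := (k h4 (edge v1 t)).2
  unfold CC
  generalize edge v1 t = e1 at *
  generalize edge v2 t = e2 at *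
  generalize edge v3 t = e3 at *
  generalize edge v4 t = e4 at *
  by_cases h : e1 = e2
  · left
    have c : e3 = e4 := by
      rcases (a4 e3).1 ((a3 e3).2 (Or.inl rfl)) with c | c
      · exact c
      · rcases (a2 e3).1 ((a1 e3).2 (Or.inr c)) with c' | c'
        · rw [c', ← h, b1] at c; exact absurd c (by simp)
        · rw [b3] at c'; exact absurd c' (by simp)
    exact ⟨h, c, b1, c ▸ b4⟩
  · right
    have c1 : S' (t, e1) = true := ((a2 e1).1 ((a1 e1).2 (Or.inl rfl))).resolve_left h
    have c2 : S (t, e2) = true := ((a1 e2).1 ((a2 e2).2 (Or.inl rfl))).resolve_left (Ne.symm h)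
    refine ⟨?_, ?_, h, b1, c2⟩
    · exact ((a4 e1).1 ((a3 e1).2 (Or.inr c1))).resolve_right (by simp [b1])
    · exact ((a3 e2).1 ((a4 e2).2 (Or.inr c2))).resolve_right (by simp [b2])

lemma E1_pt (S : Fin d × Fin w × Fin w → Bool) :
    ∑ v ∈ Pth w d, ∏ t, (if S (t, edge v t) = false then (1 : ℝ) else 0)
      ≤ ∑ U, (aN U S : ℝ) ^ 2 := by
  calc _ ≤ ∑ v ∈ Pth w d, ∑ U, (if rel v S U then (1 : ℝ) else 0) := by
        apply Finset.sum_le_sum
        intro v _
        rw [Finset.prod_boole]
        split_ifs with h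
        · refine le_trans ?_ (Finset.single_le_sum (f := fun U => if rel v S U then (1 : ℝ) else 0)
            (fun U _ => by split_ifs <;> norm_num) (Finset.mem_univ (fun e => S e || pset v e)))
          rw [if_pos]
          ext ⟨t, x⟩
          have := h t (Finset.mem_univ _)
          simp only [Finsupp.add_apply, ind_apply, pset, decide_eq_true_eq]
          by_cases c : x = edge v t <;> cases e : S (t, x) <;> simp_all
        · exact Finset.sum_nonneg fun U _ => by split_ifs <;> norm_num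
    _ = ∑ U, (aN U S : ℝ) := by
        rw [Finset.sum_comm]
        simp only [aN, Finset.card_filter]
        push_cast
        rfl
    _ ≤ _ := Finset.sum_le_sum fun U _ => by exact_mod_cast Nat.le_self_pow two_ne_zero _

lemma E2_pt (S : Fin d × Fin w × Fin w → Bool) :
    ∑ S', (∑ U, (aN U S : ℝ) * aN U S') ^ 2 ≤
      ∑ x ∈ Pth w d ×ˢ Pth w d, ∑ y ∈ Pth w d ×ˢ Pth w d, ∏ t,
        (if CC (fun e => S (t, e)) (edge x.1 t) (edge x.2 t) (edge y.2 t) (edge y.1 t)
          then (1 : ℝ) else 0) := by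
  classical
  have h1 : ∀ S', ∑ U, (aN U S : ℝ) * aN U S' ≤ ∑ x ∈ Pth w d ×ˢ Pth w d,
      (if ∃ U, rel x.1 S U ∧ rel x.2 S' U then (1 : ℝ) else 0) := by
    intro S'
    have : ∀ U, (aN U S : ℝ) * aN U S' = ∑ x ∈ Pth w d ×ˢ Pth w d,
        (if rel x.1 S U ∧ rel x.2 S' U then (1 : ℝ) else 0) := by
      intro U
      simp only [aN, Finset.card_filter]
      push_cast
      rw [Finset.sum_mul_sum, Finset.sum_product]
      refine Finset.sum_congr rfl fun a _ => Finset.sum_congr rfl fun b _ => ?_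
      by_cases c1 : rel a S U <;> by_cases c2 : rel b S' U <;> simp [c1, c2]
    simp only [this]
    rw [Finset.sum_comm]
    apply Finset.sum_le_sum
    intro x _
    rw [Finset.sum_boole]
    split_ifs with h
    · norm_cast
      rw [Finset.card_le_one]
      intro U hU U' hU'
      exact ind_inj ((Finset.mem_filter.1 hU).2.1.symm.trans (Finset.mem_filter.1 hU').2.1)
    · rw [Finset.filter_false_of_mem (fun U _ hU => h ⟨U, hU⟩)]
      simp
  calc _ ≤ ∑ S', ∑ x ∈ Pth w d ×ˢ Pth w d, ∑ y ∈ Pth w d ×ˢ Pth w d,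
        (if (∃ U, rel x.1 S U ∧ rel x.2 S' U) ∧ (∃ U, rel y.1 S U ∧ rel y.2 S' U)
          then (1 : ℝ) else 0) := by
        apply Finset.sum_le_sum
        intro S' _
        calc _ ≤ (∑ x ∈ Pth w d ×ˢ Pth w d,
            (if ∃ U, rel x.1 S U ∧ rel x.2 S' U then (1 : ℝ) else 0)) ^ 2 := by
              gcongr
              exact h1 S'
          _ = _ := by
              rw [sq, Finset.sum_mul_sum]
              refine Finset.sum_congr rfl fun a _ => Finset.sum_congr rfl fun b _ => ?_
              rw [ite_zero_mul_ite_zero, one_mul]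
    _ ≤ _ := by
        rw [Finset.sum_comm]
        apply Finset.sum_le_sum
        intro x _
        rw [Finset.sum_comm]
        apply Finset.sum_le_sum
        intro y _
        rw [Finset.sum_boole, Finset.prod_boole]
        split_ifs with h
        · norm_cast
          rw [Finset.card_le_one]
          intro A hA B hB
          obtain ⟨U, a1, a2⟩ := (Finset.mem_filter.1 hA).2.1
          obtain ⟨U', b1, b2⟩ := (Finset.mem_filter.1 hB).2.1
          exact ind_inj (add_left_cancel (a2.trans (a1.symm.trans (b1.trans b2.symm))))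
        · rw [Finset.filter_false_of_mem]
          · simp
          · rintro S' _ ⟨⟨U, a1, a2⟩, ⟨U', b1, b2⟩⟩
            exact h fun t _ => rel_CC a1 a2 b2 b1 t

omit [NeZero w] in
lemma curry_sum (r : Fin d → ℝ) (g : Fin d → (Fin w × Fin w → Bool) → ℝ) :
    ∑ S : Fin d × Fin w × Fin w → Bool, (∏ e, if S e then r e.1 else 1) *
      ∏ t, g t (fun x => S (t, x)) = ∏ t, ∑ s, wl (r t) s * g t s := by
  rw [Fintype.prod_sum, ← (Equiv.curry (Fin d) (Fin w × Fin w) Bool).sum_comp]
  apply Finset.sum_congr rfl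
  intro S _
  rw [Finset.prod_mul_distrib, Fintype.prod_prod_type]
  rfl

lemma four_paths (r : Fin d → ℝ) :
    ∑ x ∈ Pth w d ×ˢ Pth w d, ∑ y ∈ Pth w d ×ˢ Pth w d, ∏ t,
      ((if edge x.1 t = edge x.2 t ∧ edge y.2 t = edge y.1 t then (1 : ℝ) else 0) +
        r t * (if edge x.1 t = edge y.1 t ∧ edge x.2 t = edge y.2 t then 1 else 0))
    = (List.ofFn fun t : Fin d => Kt (V := Fin w) (r t)).prod (0, 0, 0, 0) (0, 0, 0, 0) := by
  rw [prod_entry, ← Finset.sum_filter, ← Finset.sum_product']
  refine Finset.sum_bij' (fun z _ => fun t => (z.1.1 t, z.1.2 t, z.2.2 t, z.2.1 t))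
    (fun q _ => ((fun t => (q t).1, fun t => (q t).2.1),
      (fun t => (q t).2.2.2, fun t => (q t).2.2.1))) ?_ ?_ ?_ ?_ ?_
  · intro z hz
    simp only [Pth, Finset.mem_product, Finset.mem_filter, Finset.mem_univ, true_and] at hz ⊢
    simp [hz]
  · intro q hq
    simp only [Pth, Finset.mem_product, Finset.mem_filter, Finset.mem_univ, true_and] at hq ⊢
    simp [hq]
  · intro z _; rfl
  · intro q _; rfl
  · intro z _
    apply Finset.prod_congr rfl
    intro t _
    simp only [Kt, io, so, edge, Matrix.of_apply, Prod.mk.injEq, ite_zero_mul_ite_zero, one_mul]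
    congr 1
    · congr 1; apply propext; tauto
    · congr 2; apply propext; tauto

lemma card_Pth (m : ℕ) : ((Pth w (m + 1)).card : ℝ) = (w : ℝ) ^ m := by
  have := ones_prod (V := Fin w) m 0 0
  rw [prod_entry] at this
  simp only [Matrix.of_apply, Finset.prod_const_one, Fintype.card_fin] at this
  rw [← this, Pth, Finset.card_filter]
  push_cast
  rfl

end

set_option maxHeartbeats 2000000 in
theorem Phi_lower (K : Type*) [Field K] [CharZero K] (w m : ℕ) [NeZero w] (α β μ : ℝ)
    (hα : 0 < α) (hβ : 0 < β) (y : ℕ → ℕ × ℕ) (ρ : ℕ → ℝ) (h0 : ρ 0 = 1)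
    (hρ : ∀ t, ρ (t + 1) = ρ t * (th α β (y t) ^ 2)⁻¹) (h1 : ∀ t, ρ t ≤ μ) (h2 : ∀ t, 1 ≤ ρ t * μ) :
    DD (fun e : Fin (m + 1) × Fin w × Fin w => y e.1) α β ≤
      Phi (fun e : Fin (m + 1) × Fin w × Fin w => y e.1) α β (∑ t : Fin (m + 1), y t)
        (IMM K w (m + 1)) * ((1 + μ / w) ^ m * (1 + μ)) := by
  classical
  set wt : Fin (m + 1) × Fin w × Fin w → ℕ × ℕ := fun e => y e.1 with hwt
  set κ := ∑ t : Fin (m + 1), y t with hκ
  set r : ℕ → ℝ := fun t => (th α β (y t) ^ 2)⁻¹ with hr
  have hr0 : ∀ t, 0 < r t := fun t => by have := th_pos hα hβ (y t); positivity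
  have hω : ∀ S, (th α β (bdeg wt S) ^ 2)⁻¹ = ∏ e, if S e then r e.1 else 1 := by
    intro S
    rw [bdeg_eq, th_sum, ← Finset.prod_pow, ← Finset.prod_inv_distrib]
    apply Finset.prod_congr rfl
    intro e _
    split_ifs
    · rfl
    · simp [th]
  have hκp : ∀ v : Fin (m + 1 + 1) → Fin w, bdeg wt (pset v) = κ := by
    intro v
    rw [bdeg, ind_pset, map_sum]
    simp [Finsupp.weight_single, hwt, hκ]
  let A : ℕ × ℕ → Matrix (Fin (m + 1) × Fin w × Fin w → Bool) (Fin (m + 1) × Fin w × Fin w → Bool) ℕ :=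
    fun δ => Matrix.of fun U S => if bdeg wt S = δ then aN U S else 0
  have hM : ∀ δ, MM wt κ δ (IMM K w (m + 1)) = (A δ).map (Nat.cast : ℕ → K) := by
    intro δ
    ext U S
    simp only [MM, TT_IMM, A, Matrix.of_apply, Matrix.map_apply]
    by_cases a : bdeg wt S = δ
    · by_cases b : aN U S = 0
      · simp [b]
      · obtain ⟨v, hv⟩ := Finset.card_ne_zero.1 b
        have c : ind (pset v) + ind S = ind U := (Finset.mem_filter.1 hv).2
        have : bdeg wt U = δ + κ := by
          rw [← a, ← hκp v, bdeg, ← c, map_add, add_comm]; rfl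
        simp [a, this]
    · simp [a]
  have key := titu (Finset.univ.image (bdeg wt)) (fun δ => (th α β δ ^ 2)⁻¹)
    (fun δ => (MM wt κ δ (IMM K w (m + 1))).rank)
    (fun δ => ∑ S, if bdeg wt S = δ then ∑ U, (aN U S : ℝ) ^ 2 else 0)
    (fun δ => ∑ S, if bdeg wt S = δ then ∑ S', (∑ U, (aN U S : ℝ) * aN U S') ^ 2 else 0)
    (fun δ => by positivity) (fun δ => by positivity)
    (fun δ => Finset.sum_nonneg fun S _ => by split_ifs <;> positivity) (by
      intro δ
      have t := trace_sq_le ((A δ).map (Nat.cast : ℕ → ℝ))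
      rw [hM, rank_nat]
      have e1 : (((A δ).map (Nat.cast : ℕ → ℝ))ᵀ * (A δ).map (Nat.cast : ℕ → ℝ)).trace
          = ∑ S, if bdeg wt S = δ then ∑ U, (aN U S : ℝ) ^ 2 else 0 := by
        simp only [Matrix.trace, Matrix.diag, Matrix.mul_apply, Matrix.transpose_apply,
          Matrix.map_apply, A, Matrix.of_apply]
        apply Finset.sum_congr rfl
        intro S _
        split_ifs <;> simp [sq]
      rw [e1] at t
      refine t.trans (mul_le_mul_of_nonneg_left ?_ (by positivity))
      simp only [Matrix.trace, Matrix.diag, Matrix.mul_apply, Matrix.transpose_apply,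
        Matrix.map_apply, A, Matrix.of_apply]
      apply Finset.sum_le_sum
      intro S _
      split_ifs with a
      · apply Finset.sum_le_sum
        intro S' _
        split_ifs with b
        · apply le_of_eq
          rw [sq]
          congr 1
          exact Finset.sum_congr rfl fun _ _ => mul_comm _ _
        · simp; positivity
      · simp)
  have fib : ∀ F : (Fin (m + 1) × Fin w × Fin w → Bool) → ℝ,
      ∑ δ ∈ Finset.univ.image (bdeg wt), (th α β δ ^ 2)⁻¹ * ∑ S, (if bdeg wt S = δ then F S else 0)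
      = ∑ S, (∏ e, if S e then r e.1 else 1) * F S := by
    intro F
    simp only [Finset.mul_sum]
    rw [Finset.sum_comm]
    apply Finset.sum_congr rfl
    intro S _
    rw [Finset.sum_eq_single (bdeg wt S)]
    · rw [if_pos rfl, hω]
    · intro δ _ hδ; rw [if_neg (Ne.symm hδ), mul_zero]
    · intro h; exact absurd (Finset.mem_image_of_mem _ (Finset.mem_univ _)) h
  simp only [fib] at key
  change _ ≤ Phi wt α β κ (IMM K w (m + 1)) * _ at key
  have hΦ : 0 ≤ Phi wt α β κ (IMM K w (m + 1)) := Finset.sum_nonneg fun _ _ => by positivity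
  have hωpos : ∀ S : Fin (m + 1) × Fin w × Fin w → Bool, 0 ≤ ∏ e, if S e then r e.1 else 1 :=
    fun S => by rw [← hω]; positivity
  obtain ⟨D, hD⟩ : ∃ D, D = ∏ t : Fin (m + 1), (1 + r t) ^ Fintype.card (Fin w × Fin w) := ⟨_, rfl⟩
  obtain ⟨u, hu⟩ : ∃ u, u = ∏ t : Fin (m + 1), (1 + r t)⁻¹ := ⟨_, rfl⟩
  have hD0 : 0 < D := hD ▸ Finset.prod_pos fun t _ => by have := hr0 t; positivity
  have hu0 : 0 < u := hu ▸ Finset.prod_pos fun t _ => by have := hr0 t; positivity
  have hDD : DD wt α β = D := by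
    have := curry_sum (w := w) (fun t : Fin (m + 1) => r t) (fun _ _ => 1)
    simp only [Finset.prod_const_one, mul_one, wl_sum] at this
    rw [DD, hD, ← this]
    exact Finset.sum_congr rfl fun S _ => hω S
  have hw0 : (0 : ℝ) < w := by exact_mod_cast Nat.pos_of_ne_zero (NeZero.ne w)
  have E1 : D * u * w ^ m ≤ ∑ S : Fin (m + 1) × Fin w × Fin w → Bool,
      (∏ e, if S e then r e.1 else 1) * ∑ U, (aN U S : ℝ) ^ 2 := by
    refine le_trans (le_of_eq ?_) (Finset.sum_le_sum fun S _ =>
      mul_le_mul_of_nonneg_left (E1_pt S) (hωpos S))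
    simp only [Finset.mul_sum]
    rw [Finset.sum_comm, Finset.sum_congr rfl (g := fun _ => D * u), Finset.sum_const,
      nsmul_eq_mul, card_Pth, mul_comm]
    intro v _
    rw [curry_sum (fun t : Fin (m + 1) => r t)
      (fun t s => if s (edge v t) = false then (1 : ℝ) else 0)]
    simp only [wl_one (hr0 _)]
    rw [Finset.prod_mul_distrib, hD, hu]
  have hμ : 0 < μ := by have := h1 0; rw [h0] at this; linarith
  have E2 : ∑ S : Fin (m + 1) × Fin w × Fin w → Bool,
      (∏ e, if S e then r e.1 else 1) * ∑ S', (∑ U, (aN U S : ℝ) * aN U S') ^ 2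
      ≤ D * u ^ 2 * ((w ^ 2 + μ * w) ^ m * (1 + μ)) := by
    refine le_trans (Finset.sum_le_sum fun S _ =>
      mul_le_mul_of_nonneg_left (E2_pt S) (hωpos S)) ?_
    have t := transfer (0 : Fin w) r ρ μ hr0 h0 hρ h1 h2 m (0, 0, 0, 0)
    rw [← four_paths (fun t : Fin (m + 1) => r t)] at t
    simp only [io, so, and_self, if_true, mul_one, Fintype.card_fin] at t
    have t2 : ((w : ℝ) ^ 2 + μ * w) ^ m * (1 + ρ (m + 1)) ≤ (w ^ 2 + μ * w) ^ m * (1 + μ) := by
      gcongr; exact h1 _
    refine le_trans ?_ (mul_le_mul_of_nonneg_left (t.trans t2) (by positivity))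
    simp only [Finset.mul_sum]
    rw [Finset.sum_comm]
    apply Finset.sum_le_sum
    intro x _
    rw [Finset.sum_comm]
    apply Finset.sum_le_sum
    intro z _
    rw [curry_sum (fun t : Fin (m + 1) => r t) (fun t s =>
      if CC s (edge x.1 t) (edge x.2 t) (edge z.2 t) (edge z.1 t) then (1 : ℝ) else 0),
      hD, hu, ← Finset.prod_pow, ← Finset.prod_mul_distrib, ← Finset.prod_mul_distrib]
    apply Finset.prod_le_prod
    · intro t _
      apply Finset.sum_nonneg
      intro s _
      apply mul_nonneg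
      · exact Finset.prod_nonneg fun _ _ => by have := hr0 t; split_ifs <;> positivity
      · split_ifs <;> norm_num
    · intro t _
      exact wl_CC (hr0 t) _ _ _ _
  rw [hDD]
  have k1 : (D * u * w ^ m) ^ 2 ≤ Phi wt α β κ (IMM K w (m + 1)) *
      (D * u ^ 2 * ((w ^ 2 + μ * w) ^ m * (1 + μ))) :=
    (pow_le_pow_left₀ (by positivity) E1 2).trans (key.trans (mul_le_mul_of_nonneg_left E2 hΦ))
  have e : ((w : ℝ) ^ 2 + μ * w) ^ m = (w ^ m) ^ 2 * (1 + μ / w) ^ m := by
    rw [← pow_mul, mul_comm m 2, pow_mul, ← mul_pow]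
    congr 1
    field_simp
  rw [e] at k1
  apply le_of_mul_le_mul_right _ (show 0 < D * u ^ 2 * (w ^ m) ^ 2 by positivity)
  calc D * (D * u ^ 2 * (w ^ m) ^ 2) = (D * u * w ^ m) ^ 2 := by ring
    _ ≤ _ := k1
    _ = _ := by ring

end Vale.Agent.P346
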